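import Vale.Agent.P299.H954.IX.G.Loc
import Vale.Agent.P299.H954.VF

/-!
# Change of charts for `D'`, `δ`, the curvature term and the Hermitian product
-/

open scoped Manifold ContDiff ComplexOrder Topology Matrix
open Vale.Agent.P272.K Vale.Agent.P272.K.C2 Vale.Agent.P299.H954

set_option linter.unusedSectionVars false

noncomputable section

namespace Vale.Agent.P299.IX.G

section point

variable {n : ℕ} {J : Matrix (Fin n) (Fin n) ℂ} {w w' : Cm n → Matrix (Fin n) (Fin n) ℂ}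
  {z z' : Cm n} {H H' : Cm n → ℂ} {c : ℂ}

theorem map_conj_eq (J : Matrix (Fin n) (Fin n) ℂ) : J.map (starRingEnd ℂ) = (Jᵀ)ᴴ := rfl

theorem map_conj_det (J : Matrix (Fin n) (Fin n) ℂ) :
    (J.map (starRingEnd ℂ)).det = (starRingEnd ℂ) J.det := by
  rw [map_conj_eq, Matrix.det_conjTranspose, Matrix.det_transpose]; rfl

/-- `J̄ w⁻¹ Jᵀ = w'⁻¹` -/
theorem inv_change (hJ : IsUnit J.det) (hw : w z = Jᵀ * w' z' * J.map (starRingEnd ℂ)) :
    J.map (starRingEnd ℂ) * (w z)⁻¹ * Jᵀ = (w' z')⁻¹ := by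
  rw [hw, inv_form hJ]
  have h1 : J.map (starRingEnd ℂ) * (J.map (starRingEnd ℂ))⁻¹ = 1 :=
    Matrix.mul_nonsing_inv _ (isUnit_conj hJ)
  have h2 : (Jᵀ)⁻¹ * Jᵀ = 1 := Matrix.nonsing_inv_mul _ (by rwa [Matrix.det_transpose])
  calc J.map (starRingEnd ℂ) * ((J.map (starRingEnd ℂ))⁻¹ * (w' z')⁻¹ * (Jᵀ)⁻¹) * Jᵀ
      = (J.map (starRingEnd ℂ) * (J.map (starRingEnd ℂ))⁻¹) * (w' z')⁻¹ * ((Jᵀ)⁻¹ * Jᵀ) := by
        simp only [Matrix.mul_assoc]
    _ = _ := by rw [h1, h2, Matrix.one_mul, Matrix.mul_one]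

theorem mul_conj_norm (c : ℂ) : c * (starRingEnd ℂ) c = ((‖c‖ ^ 2 : ℝ) : ℂ) := by
  rw [Complex.mul_conj, Complex.normSq_eq_norm_sq]

theorem det_change (hw : w z = Jᵀ * w' z' * J.map (starRingEnd ℂ)) :
    (w z).det = ((‖J.det‖ ^ 2 : ℝ) : ℂ) * (w' z').det := by
  rw [hw, Matrix.det_mul, Matrix.det_mul, Matrix.det_transpose, map_conj_det]
  linear_combination (w' z').det * mul_conj_norm J.det

theorem hp_change (hJ : IsUnit J.det) (hw : w z = Jᵀ * w' z' * J.map (starRingEnd ℂ))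
    (hH : H z = ((‖c‖ ^ 2 : ℝ) : ℂ) * H' z')
    {u v u' v' : FI n → ℂ} (hu : c • u = lam Jᵀ *ᵥ u') (hv : c • v = lam Jᵀ *ᵥ v') :
    hp H w z u v = hp H' w' z' u' v' * ((‖J.det‖ ^ 2 : ℝ) : ℂ) := by
  have hpr : (((‖c‖ ^ 2 : ℝ) : ℂ)) * pr (Ld w z *ᵥ u) v = pr (Ld w' z' *ᵥ u') v' := by
    have e1 : (((‖c‖ ^ 2 : ℝ) : ℂ)) * pr (Ld w z *ᵥ u) v =
        pr (Ld w z *ᵥ (c • u)) (c • v) := by
      rw [Matrix.mulVec_smul, pr_smul_left, pr_smul_right, ← mul_conj_norm]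
      ring
    rw [e1, hu, hv, pr_mulVec_right, Matrix.mulVec_mulVec, Matrix.mulVec_mulVec]
    congr 2
    rw [Ld, Ld, ← lam_conjTranspose, ← map_conj_eq, ← lam_mul, ← lam_mul, inv_change hJ hw]
  simp only [hp, rho]
  rw [hH, det_change hw, ← hpr]
  ring

theorem epd_change (hJ : IsUnit J.det) (hw : w z = Jᵀ * w' z' * J.map (starRingEnd ℂ))
    (p : Fin n) : (∑ b, (starRingEnd ℂ) (J p b) • epd b w z) * lam Jᵀ =
      lam Jᵀ * epd p w' z' := by
  have h1 : ∑ b, (starRingEnd ℂ) (J p b) • epd b w z =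
      ∑ l, (J.map (starRingEnd ℂ) * (w z)⁻¹) p l • iot l := by
    simp only [epd, Finset.smul_sum, smul_smul]
    rw [Finset.sum_comm]
    refine Finset.sum_congr rfl fun l _ => ?_
    rw [← Finset.sum_smul, Matrix.mul_apply]
    rfl
  rw [h1, Matrix.sum_mul]
  simp only [Matrix.smul_mul, iot_lam]
  simp only [← Matrix.mul_smul, ← Matrix.mul_sum]
  congr 1
  simp only [Finset.smul_sum, smul_smul]
  rw [Finset.sum_comm, epd]
  refine Finset.sum_congr rfl fun m _ => ?_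
  rw [← Finset.sum_smul, ← Matrix.mul_apply, inv_change hJ hw]

end point

section loc

variable {n : ℕ} {τ : Cm n → Cm n} {w w' : Cm n → Matrix (Fin n) (Fin n) ℂ}
  {z : Cm n} {c : Cm n → ℂ} {H H' : Cm n → ℂ} {θ θ' : Fin n → Cm n → ℂ}
  {a a' d d' : Cm n → FI n → ℂ}

/-- data of a change of coordinates `τ` near `z` -/
structure Chg (τ : Cm n → Cm n) (w w' : Cm n → Matrix (Fin n) (Fin n) ℂ) (z : Cm n) : Prop where
  an : ContDiffAt ℂ ω τ z
  kat : KAt w z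
  kat' : KAt w' (τ z)
  unit : IsUnit (jmat τ z).det
  form : w z = (jmat τ z)ᵀ * w' (τ z) * (jmat τ z).map (starRingEnd ℂ)

/-- data of a change of frame of the line bundle -/
structure ChgL (τ : Cm n → Cm n) (c : Cm n → ℂ) (H H' : Cm n → ℂ) (θ θ' : Fin n → Cm n → ℂ)
    (z : Cm n) : Prop where
  lat : LAt H θ z
  lat' : LAt H' θ' (τ z)
  an : ContDiffAt ℂ ω c z
  ne : c z ≠ 0
  norm : ∀ᶠ y in 𝓝 z, H y = ((‖c y‖ ^ 2 : ℝ) : ℂ) * H' (τ y)

/-- data of a section in two charts -/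
structure ChgV (τ : Cm n → Cm n) (c : Cm n → ℂ) (a a' : Cm n → FI n → ℂ) (z : Cm n) : Prop where
  sm : VC 1 a z
  sm' : VC 1 a' (τ z)
  ch : ∀ᶠ y in 𝓝 z, c y • a y = lam (jmat τ y)ᵀ *ᵥ a' (τ y)

theorem ChgV.chz (h : ChgV τ c a a' z) : c z • a z = lam (jmat τ z)ᵀ *ᵥ a' (τ z) :=
  h.ch.self_of_nhds

theorem real_of_holo {f : Cm n → ℂ} (h : ContDiffAt ℂ ω f z) : ContDiffAt ℝ ∞ f z :=
  (h.restrict_scalars ℝ).of_le le_top

theorem dz_conj_holo {f : Cm n → ℂ} (h : ContDiffAt ℂ ω f z) (l : Fin n) :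
    dz l (fun y => (starRingEnd ℂ) (f y)) z = 0 := by
  rw [dz_conj l ((real_of_holo h).differentiableAt (by simp)),
    dzb_of_holo (h.differentiableAt (by simp)), map_zero]

theorem Chg.diff (h : Chg τ w w' z) : DifferentiableAt ℂ τ z := h.an.differentiableAt (by simp)

theorem theta_change (hτ : DifferentiableAt ℂ τ z) (h : ChgL τ c H H' θ θ' z) (l : Fin n) :
    θ l z = (c z)⁻¹ * dz l c z + ∑ p, jmat τ z p l * θ' p (τ z) := by
  have hc : DifferentiableAt ℝ c z := (real_of_holo h.an).differentiableAt (by simp)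
  have hcc : DifferentiableAt ℝ (fun y => (starRingEnd ℂ) (c y)) z := differentiableAt_conj hc
  have hH' : DifferentiableAt ℝ H' (τ z) := h.lat'.sm.differentiableAt (by simp)
  have hHτ : DifferentiableAt ℝ (fun y => H' (τ y)) z :=
    hH'.comp z (hτ.restrictScalars ℝ)
  have e1 : dz l H z = dz l (fun y => c y * (starRingEnd ℂ) (c y) * H' (τ y)) z := by
    refine dz_congr l ?_
    filter_upwards [h.norm] with y hy
    rw [hy, mul_conj_norm]
  have e2 : dz l (fun y => H' (τ y)) z = (∑ p, jmat τ z p l * θ' p (τ z)) * H' (τ z) := by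
    rw [dz_comp_holo hH' hτ, Finset.sum_mul]
    refine Finset.sum_congr rfl fun p _ => ?_
    rw [h.lat'.dH]; ring
  rw [h.lat.dH, dz_mul l (hc.fun_mul hcc) hHτ, dz_mul l hc hcc, dz_conj_holo h.an, e2,
    h.norm.self_of_nhds, ← mul_conj_norm] at e1
  have h0 : c z * (starRingEnd ℂ) (c z) * H' (τ z) ≠ 0 :=
    mul_ne_zero (mul_ne_zero h.ne ((map_ne_zero _).2 h.ne)) h.lat'.ne
  refine mul_right_cancel₀ h0 ?_
  rw [e1]
  have e3 : (c z)⁻¹ * dz l c z * (c z * (starRingEnd ℂ) (c z) * H' (τ z)) =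
      dz l c z * (starRingEnd ℂ) (c z) * H' (τ z) := by
    field_simp [h.ne]
  linear_combination -e3

theorem DV_comp (h : DifferentiableAt ℂ τ z) (ha : VC 1 a' (τ z)) (l : Fin n) :
    DV l (fun y => a' (τ y)) z = ∑ p, jmat τ z p l • DV p a' (τ z) := by
  ext I
  simp only [DV, Finset.sum_apply, Pi.smul_apply, smul_eq_mul]
  rw [dz_comp_holo (ha.d one_ne_zero_inf I) h]
  exact Finset.sum_congr rfl fun _ _ => mul_comm _ _

theorem DVb_comp (h : DifferentiableAt ℂ τ z) (ha : VC 1 a' (τ z)) (l : Fin n) :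
    DVb l (fun y => a' (τ y)) z = ∑ p, (starRingEnd ℂ) (jmat τ z p l) • DVb p a' (τ z) := by
  ext I
  simp only [DVb, Finset.sum_apply, Pi.smul_apply, smul_eq_mul]
  rw [dzb_comp_holo (ha.d one_ne_zero_inf I) h]
  exact Finset.sum_congr rfl fun _ _ => mul_comm _ _

theorem VC_comp {m : WithTop ℕ∞} (h : ContDiffAt ℂ ω τ z) (ha : VC m a' (τ z)) (hm : m ≤ ∞) :
    VC m (fun y => a' (τ y)) z := fun I =>
  (ha I).comp z (((h.restrict_scalars ℝ).of_le le_top).of_le hm)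

theorem MC_jmatT (h : ContDiffAt ℂ ω τ z) : MC ∞ (fun y => (jmat τ y)ᵀ) z := fun i p =>
  real_of_holo (jmat_holo h p i)

theorem DMb_jmatT (h : ContDiffAt ℂ ω τ z) (l : Fin n) :
    DMb l (fun y => (jmat τ y)ᵀ) z = 0 := by
  ext i p
  exact dzb_of_holo ((jmat_holo h p i).differentiableAt (by simp))

theorem DM_jmatT_symm (h : ContDiffAt ℂ ω τ z) (l a : Fin n) (p : Fin n) :
    DM l (fun y => (jmat τ y)ᵀ) z a p = DM a (fun y => (jmat τ y)ᵀ) z l p := by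
  have h1 : ContDiffAt ℝ 2 (fun y => τ y p) z :=
    (contDiffAt_pi.1 ((h.restrict_scalars ℝ).of_le le_top)) p
  exact dz_dz_comm l a h1

/-- the second derivatives of the change of coordinates do not contribute -/
theorem sum_eps_DM_lam (h : ContDiffAt ℂ ω τ z) (hu : IsUnit (jmat τ z).det) :
    ∑ l, eps l * DM l (fun y => lam (jmat τ y)ᵀ) z = 0 := by
  have hu' : ((jmat τ z)ᵀ).det ≠ 0 := by rw [Matrix.det_transpose]; exact hu.ne_zero
  have h1 : ∀ l, DM l (fun y => lam (jmat τ y)ᵀ) z =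
      dlam (DM l (fun y => (jmat τ y)ᵀ) z * ((jmat τ z)ᵀ)⁻¹) * lam (jmat τ z)ᵀ := fun l =>
    DM_lam ((MC_jmatT h).mono (by exact_mod_cast le_top)) hu' l
  simp only [h1, ← Matrix.mul_assoc]
  rw [← Matrix.sum_mul]
  have h2 : ∑ l, eps l * dlam (DM l (fun y => (jmat τ y)ᵀ) z * ((jmat τ z)ᵀ)⁻¹) = 0 := by
    have h3 : ∀ l, eps l * dlam (DM l (fun y => (jmat τ y)ᵀ) z * ((jmat τ z)ᵀ)⁻¹) =
        ∑ a, eps l * eps a *
          ∑ m, (DM l (fun y => (jmat τ y)ᵀ) z * ((jmat τ z)ᵀ)⁻¹) a m • iot m := by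
      intro l
      rw [dlam, Matrix.mul_sum]
      refine Finset.sum_congr rfl fun a _ => ?_
      rw [Matrix.mul_sum, Matrix.mul_sum]
      refine Finset.sum_congr rfl fun m _ => ?_
      rw [Matrix.mul_smul, Matrix.mul_smul, Matrix.mul_assoc]
    simp only [h3]
    refine sum_eps_symm fun l a => ?_
    refine Finset.sum_congr rfl fun m _ => ?_
    congr 1
    rw [Matrix.mul_apply, Matrix.mul_apply]
    exact Finset.sum_congr rfl fun p _ => by rw [DM_jmatT_symm h l a p]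
  rw [h2, Matrix.zero_mul]

theorem DMb_lamJ (h : ContDiffAt ℂ ω τ z) (hu : IsUnit (jmat τ z).det) (l : Fin n) :
    DMb l (fun y => lam (jmat τ y)ᵀ) z = 0 := by
  have hu' : ((jmat τ z)ᵀ).det ≠ 0 := by rw [Matrix.det_transpose]; exact hu.ne_zero
  rw [DMb_lam ((MC_jmatT h).mono (by exact_mod_cast le_top)) hu' l, DMb_jmatT h,
    Matrix.zero_mul, show dlam (0 : Matrix (Fin n) (Fin n) ℂ) = 0 by simp [dlam],
    Matrix.zero_mul]

/-- **`D'` is covariant** -/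
theorem Dp_change (hg : Chg τ w w' z) (hl : ChgL τ c H H' θ θ' z) (hv : ChgV τ c a a' z) :
    c z • Dp θ a z = lam (jmat τ z)ᵀ *ᵥ Dp θ' a' (τ z) := by
  have hMC : MC 1 (fun y => lam (jmat τ y)ᵀ) z :=
    (MC_lam (MC_jmatT hg.an)).mono (by exact_mod_cast le_top)
  have hc1 : ContDiffAt ℝ 1 c z := (real_of_holo hl.an).of_le (by exact_mod_cast le_top)
  have e1 : ∀ l, dz l c z • a z + c z • DV l a z =
      DM l (fun y => lam (jmat τ y)ᵀ) z *ᵥ a' (τ z) +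
        lam (jmat τ z)ᵀ *ᵥ ∑ p, jmat τ z p l • DV p a' (τ z) := by
    intro l
    rw [← DV_smul hc1 hv.sm, ← DV_comp hg.diff hv.sm',
      ← DV_mulVec hMC (VC_comp hg.an hv.sm' (by exact_mod_cast le_top))]
    exact DV_congr hv.ch
  have e2 : ∀ l, c z • (DV l a z + θ l z • a z) =
      DM l (fun y => lam (jmat τ y)ᵀ) z *ᵥ a' (τ z) +
        lam (jmat τ z)ᵀ *ᵥ ∑ p, jmat τ z p l • (DV p a' (τ z) + θ' p (τ z) • a' (τ z)) := by
    intro l
    have e3 : c z • (θ l z • a z) = dz l c z • a z +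
        lam (jmat τ z)ᵀ *ᵥ ∑ p, jmat τ z p l • (θ' p (τ z) • a' (τ z)) := by
      rw [theta_change hg.diff hl, smul_smul, mul_add, add_smul, ← mul_assoc,
        mul_inv_cancel₀ hl.ne, one_mul]
      congr 1
      rw [mul_comm (c z), mul_smul, hv.chz, ← Matrix.mulVec_smul]
      congr 1
      rw [Finset.sum_smul]
      exact Finset.sum_congr rfl fun p _ => by rw [smul_smul]
    rw [smul_add, e3]
    simp only [smul_add, Finset.sum_add_distrib, Matrix.mulVec_add]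
    rw [← add_assoc, ← add_assoc, ← e1]
    abel
  have e6 : ∀ l, c z • (eps l *ᵥ (DV l a z + θ l z • a z)) =
      eps l *ᵥ (DM l (fun y => lam (jmat τ y)ᵀ) z *ᵥ a' (τ z)) + eps l *ᵥ
        (lam (jmat τ z)ᵀ *ᵥ ∑ p, jmat τ z p l • (DV p a' (τ z) + θ' p (τ z) • a' (τ z))) := by
    intro l
    rw [← Matrix.mulVec_smul, e2, Matrix.mulVec_add]
  rw [Dp, Finset.smul_sum]
  simp only [e6, Finset.sum_add_distrib]
  have e4 : ∑ l, eps l *ᵥ (DM l (fun y => lam (jmat τ y)ᵀ) z *ᵥ a' (τ z)) = 0 := by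
    simp only [Matrix.mulVec_mulVec]
    rw [← Matrix.sum_mulVec, sum_eps_DM_lam hg.an hg.unit, Matrix.zero_mulVec]
  rw [e4, zero_add, Dp, Matrix.mulVec_sum]
  have e5 : ∀ p (X : FI n → ℂ), lam (jmat τ z)ᵀ *ᵥ (eps p *ᵥ X) =
      ∑ l, eps l *ᵥ (lam (jmat τ z)ᵀ *ᵥ (jmat τ z p l • X)) := by
    intro p X
    rw [Matrix.mulVec_mulVec, lam_eps, Matrix.sum_mul, Matrix.sum_mulVec]
    refine Finset.sum_congr rfl fun l _ => ?_
    rw [Matrix.smul_mul, Matrix.smul_mulVec, Matrix.mulVec_smul, Matrix.mulVec_smul,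
      Matrix.mulVec_mulVec]
    rfl
  simp only [e5, Matrix.mulVec_sum]
  exact Finset.sum_comm

theorem DVb_law (hg : Chg τ w w' z) (hcan : ContDiffAt ℂ ω c z) (hv : ChgV τ c a a' z)
    (l : Fin n) : c z • DVb l a z =
      lam (jmat τ z)ᵀ *ᵥ ∑ p, (starRingEnd ℂ) (jmat τ z p l) • DVb p a' (τ z) := by
  have hMC : MC 1 (fun y => lam (jmat τ y)ᵀ) z :=
    (MC_lam (MC_jmatT hg.an)).mono (by exact_mod_cast le_top)
  have hc1 : ContDiffAt ℝ 1 c z := (real_of_holo hcan).of_le (by exact_mod_cast le_top)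
  have e1 : DVb l (fun y => c y • a y) z = DVb l (fun y => lam (jmat τ y)ᵀ *ᵥ a' (τ y)) z :=
    DVb_congr hv.ch
  rw [DVb_smul hc1 hv.sm, DVb_mulVec hMC (VC_comp hg.an hv.sm' (by exact_mod_cast le_top)),
    DMb_lamJ hg.an hg.unit, Matrix.zero_mulVec, zero_add,
    dzb_of_holo (hcan.differentiableAt (by simp)), zero_smul, zero_add,
    DVb_comp hg.diff hv.sm'] at e1
  exact e1

/-- **`δ` is covariant** -/
theorem De_change (hg : Chg τ w w' z) (hcan : ContDiffAt ℂ ω c z) (hv : ChgV τ c a a' z) :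
    c z • De w a z = lam (jmat τ z)ᵀ *ᵥ De w' a' (τ z) := by
  rw [De, De, smul_neg, Matrix.mulVec_neg, Finset.smul_sum]
  congr 1
  have e1 : ∀ b, c z • (epd b w z *ᵥ DVb b a z) =
      ∑ p, ((starRingEnd ℂ) (jmat τ z p b) • epd b w z) *ᵥ
        (lam (jmat τ z)ᵀ *ᵥ DVb p a' (τ z)) := by
    intro b
    rw [← Matrix.mulVec_smul, DVb_law hg hcan hv, Matrix.mulVec_sum, Matrix.mulVec_sum]
    refine Finset.sum_congr rfl fun p _ => ?_
    rw [Matrix.mulVec_smul, Matrix.mulVec_smul, Matrix.smul_mulVec]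
  simp only [e1]
  rw [Finset.sum_comm, Matrix.mulVec_sum]
  refine Finset.sum_congr rfl fun p _ => ?_
  rw [← Matrix.sum_mulVec, Matrix.mulVec_mulVec, epd_change hg.unit hg.form,
    ← Matrix.mulVec_mulVec]

/-- the curvature is a form -/
theorem curv_change (hg : ∀ᶠ y in 𝓝 z, Chg τ w w' y) (hl : ∀ᶠ y in 𝓝 z, ChgL τ c H H' θ θ' y)
    (l b : Fin n) : dzb b (θ l) z = ∑ p, ∑ q, jmat τ z p l * (starRingEnd ℂ) (jmat τ z q b) *
      dzb q (θ' p) (τ z) := by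
  have hgz := hg.self_of_nhds
  have hlz := hl.self_of_nhds
  have e1 : dzb b (θ l) z =
      dzb b (fun y => (c y)⁻¹ * dz l c y + ∑ p, jmat τ y p l * θ' p (τ y)) z := by
    refine dzb_congr b ?_
    filter_upwards [hg, hl] with y hy hy' using theta_change hy.diff hy' l
  have hc : ContDiffAt ℂ ω c z := hlz.an
  have hci : ContDiffAt ℂ ω (fun y => (c y)⁻¹) z := hc.inv hlz.ne
  have hdc : ContDiffAt ℂ ω (fun y => dz l c y) z := by
    have h1 : ContDiffAt ℂ ω (fun y => fderiv ℂ c y (Pi.single l 1)) z :=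
      (hc.fderiv_right (m := ω) (by simp)).clm_apply contDiffAt_const
    refine h1.congr_of_eventuallyEq ?_
    filter_upwards [hl] with y hy
    exact dz_of_holo (hy.an.differentiableAt (by simp))
  have h1 : ContDiffAt ℂ ω (fun y => (c y)⁻¹ * dz l c y) z := hci.mul hdc
  have hθ : ∀ p, DifferentiableAt ℝ (θ' p) (τ z) := fun p =>
    (hlz.lat'.smTheta p).differentiableAt (by simp)
  have hθτ : ∀ p, DifferentiableAt ℝ (fun y => θ' p (τ y)) z := fun p =>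
    (hθ p).comp z (hgz.diff.restrictScalars ℝ)
  have hJ : ∀ p, DifferentiableAt ℝ (fun y => jmat τ y p l) z := fun p =>
    (real_of_holo (jmat_holo hgz.an p l)).differentiableAt (by simp)
  rw [e1, dzb_add b ((real_of_holo h1).differentiableAt (by simp))
    (DifferentiableAt.fun_sum fun p _ => (hJ p).fun_mul (hθτ p)),
    dzb_of_holo (h1.differentiableAt (by simp)), zero_add,
    dzb_sum b _ fun p _ => (hJ p).fun_mul (hθτ p)]
  refine Finset.sum_congr rfl fun p _ => ?_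
  rw [dzb_mul b (hJ p) (hθτ p), dzb_of_holo ((jmat_holo hgz.an p l).differentiableAt (by simp)),
    zero_mul, zero_add, dzb_comp_holo (hθ p) hgz.diff, Finset.mul_sum]
  refine Finset.sum_congr rfl fun q _ => ?_
  rw [show cj (jmat τ z q b) = (starRingEnd ℂ) (jmat τ z q b) from rfl]
  ring

/-- **the curvature term is covariant** -/
theorem Qk_change (hg : ∀ᶠ y in 𝓝 z, Chg τ w w' y) (hl : ∀ᶠ y in 𝓝 z, ChgL τ c H H' θ θ' y)
    {u u' : FI n → ℂ} (hu : c z • u = lam (jmat τ z)ᵀ *ᵥ u') :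
    c z • Qk θ w z u = lam (jmat τ z)ᵀ *ᵥ Qk θ' w' (τ z) u' := by
  have hgz := hg.self_of_nhds
  have e0 : ∀ p q, lam (jmat τ z)ᵀ *ᵥ (epd q w' (τ z) *ᵥ (eps p *ᵥ u')) =
      ∑ l, ∑ b, (jmat τ z p l * (starRingEnd ℂ) (jmat τ z q b)) •
        (epd b w z *ᵥ (eps l *ᵥ (lam (jmat τ z)ᵀ *ᵥ u'))) := by
    intro p q
    have e3 : lam (jmat τ z)ᵀ *ᵥ (eps p *ᵥ u') =
        ∑ l, jmat τ z p l • (eps l *ᵥ (lam (jmat τ z)ᵀ *ᵥ u')) := by
      rw [Matrix.mulVec_mulVec, lam_eps, Matrix.sum_mul, Matrix.sum_mulVec]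
      refine Finset.sum_congr rfl fun l _ => ?_
      rw [Matrix.smul_mul, Matrix.smul_mulVec, Matrix.mulVec_mulVec]
      rfl
    rw [Matrix.mulVec_mulVec, ← epd_change hgz.unit hgz.form, ← Matrix.mulVec_mulVec, e3,
      Matrix.mulVec_sum]
    refine Finset.sum_congr rfl fun l _ => ?_
    rw [Matrix.mulVec_smul, Matrix.sum_mulVec, Finset.smul_sum]
    refine Finset.sum_congr rfl fun b _ => ?_
    rw [Matrix.smul_mulVec, smul_smul]
  have e1 : c z • Qk θ w z u = ∑ l, ∑ b, (-(dzb b (θ l) z)) •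
      (epd b w z *ᵥ (eps l *ᵥ (lam (jmat τ z)ᵀ *ᵥ u'))) := by
    rw [Qk, Finset.smul_sum]
    refine Finset.sum_congr rfl fun l _ => ?_
    rw [Finset.smul_sum]
    refine Finset.sum_congr rfl fun b _ => ?_
    rw [← hu, Matrix.mulVec_smul, Matrix.mulVec_smul, smul_comm]
  have e2 : lam (jmat τ z)ᵀ *ᵥ Qk θ' w' (τ z) u' = ∑ p, ∑ q, (-(dzb q (θ' p) (τ z))) •
      ∑ l, ∑ b, (jmat τ z p l * (starRingEnd ℂ) (jmat τ z q b)) •
        (epd b w z *ᵥ (eps l *ᵥ (lam (jmat τ z)ᵀ *ᵥ u'))) := by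
    rw [Qk, Matrix.mulVec_sum]
    refine Finset.sum_congr rfl fun p _ => ?_
    rw [Matrix.mulVec_sum]
    refine Finset.sum_congr rfl fun q _ => ?_
    rw [Matrix.mulVec_smul, e0]
  rw [e1, e2]
  simp only [Finset.smul_sum, smul_smul]
  have e4 : ∀ F : Fin n → Fin n → Fin n → Fin n → FI n → ℂ,
      ∑ p, ∑ q, ∑ l, ∑ b, F p q l b = ∑ l, ∑ b, ∑ p, ∑ q, F p q l b := by
    intro F
    have h1 : ∀ p, ∑ q, ∑ l, ∑ b, F p q l b = ∑ l, ∑ b, ∑ q, F p q l b := by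
      intro p
      rw [Finset.sum_comm]
      exact Finset.sum_congr rfl fun l _ => Finset.sum_comm
    simp only [h1]
    rw [Finset.sum_comm]
    exact Finset.sum_congr rfl fun l _ => Finset.sum_comm
  rw [e4]
  refine Finset.sum_congr rfl fun l _ => Finset.sum_congr rfl fun b _ => ?_
  rw [curv_change hg hl l b, ← Finset.sum_neg_distrib, Finset.sum_smul]
  refine Finset.sum_congr rfl fun p _ => ?_
  rw [← Finset.sum_neg_distrib, Finset.sum_smul]
  refine Finset.sum_congr rfl fun q _ => ?_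
  congr 1
  ring

/-- the gradient density -/
def gradb (H : Cm n → ℂ) (w : Cm n → Matrix (Fin n) (Fin n) ℂ) (a d : Cm n → FI n → ℂ)
    (z : Cm n) : ℂ :=
  ∑ l, ∑ b, (w z)⁻¹ b l * hp H w z (DVb b a z) (DVb l d z)

theorem gradb_change (hg : Chg τ w w' z) (hcan : ContDiffAt ℂ ω c z)
    (hH : H z = ((‖c z‖ ^ 2 : ℝ) : ℂ) * H' (τ z)) (ha : ChgV τ c a a' z)
    (hd : ChgV τ c d d' z) :
    gradb H w a d z = gradb H' w' a' d' (τ z) * ((‖(jmat τ z).det‖ ^ 2 : ℝ) : ℂ) := by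
  have e1 : ∀ l b, (w z)⁻¹ b l * hp H w z (DVb b a z) (DVb l d z) =
      ∑ q, ∑ p, ((starRingEnd ℂ) (jmat τ z q b) * (w z)⁻¹ b l * jmat τ z p l) *
        (hp H' w' (τ z) (DVb q a' (τ z)) (DVb p d' (τ z)) *
          ((‖(jmat τ z).det‖ ^ 2 : ℝ) : ℂ)) := by
    intro l b
    rw [hp_change hg.unit hg.form hH (DVb_law hg hcan ha b) (DVb_law hg hcan hd l),
      hp_sum_left, Finset.sum_mul, Finset.mul_sum]
    refine Finset.sum_congr rfl fun q _ => ?_
    rw [hp_sum_right, Finset.sum_mul, Finset.mul_sum]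
    refine Finset.sum_congr rfl fun p _ => ?_
    rw [hp_smul_left, hp_smul_right, Complex.conj_conj]
    ring
  have e2 : ∀ q p, ∑ l, ∑ b, (starRingEnd ℂ) (jmat τ z q b) * (w z)⁻¹ b l * jmat τ z p l =
      (w' (τ z))⁻¹ q p := by
    intro q p
    rw [← inv_change hg.unit hg.form, Matrix.mul_apply]
    refine Finset.sum_congr rfl fun l _ => ?_
    rw [Matrix.mul_apply, Finset.sum_mul]
    rfl
  simp only [gradb, e1]
  have e4 : ∀ F : Fin n → Fin n → Fin n → Fin n → ℂ,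
      ∑ l, ∑ b, ∑ q, ∑ p, F l b q p = ∑ q, ∑ p, ∑ l, ∑ b, F l b q p := by
    intro F
    have h1 : ∀ p, ∑ q, ∑ l, ∑ b, F p q l b = ∑ l, ∑ b, ∑ q, F p q l b := by
      intro p
      rw [Finset.sum_comm]
      exact Finset.sum_congr rfl fun l _ => Finset.sum_comm
    simp only [h1]
    rw [Finset.sum_comm]
    exact Finset.sum_congr rfl fun l _ => Finset.sum_comm
  rw [e4]
  have e5 : ∀ q p, ∑ l, ∑ b, (starRingEnd ℂ) (jmat τ z q b) * (w z)⁻¹ b l * jmat τ z p l *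
      (hp H' w' (τ z) (DVb q a' (τ z)) (DVb p d' (τ z)) *
          ((‖(jmat τ z).det‖ ^ 2 : ℝ) : ℂ)) = (w' (τ z))⁻¹ q p *
      (hp H' w' (τ z) (DVb q a' (τ z)) (DVb p d' (τ z)) *
          ((‖(jmat τ z).det‖ ^ 2 : ℝ) : ℂ)) := by
    intro q p
    rw [← e2 q p, Finset.sum_mul]
    refine Finset.sum_congr rfl fun l _ => ?_
    rw [Finset.sum_mul]
  simp only [e5]
  rw [Finset.sum_mul, Finset.sum_comm]
  refine Finset.sum_congr rfl fun l _ => ?_
  rw [Finset.sum_mul]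
  exact Finset.sum_congr rfl fun b _ => by ring

end loc

end Vale.Agent.P299.IX.G
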