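import Vale.Agent.P272.K.INT.Global

/-!
# Complex valued densities and the divergence theorem for densities supported in a chart
-/

open scoped Manifold ContDiff ComplexOrder Topology
open MeasureTheory Set Filter
open Vale.Agent.P272.K

set_option linter.unusedSectionVars false

noncomputable section

namespace Vale.Agent.P299.IX.G

variable {n : ℕ} {Z : Type*} [TopologicalSpace Z] [ChartedSpace (Cm n) Z]

/-- complex valued densities -/
structure IsDensC (F : Chart n Z → Cm n → ℂ) : Prop where
  cont : ∀ e x, At e x → ContinuousAt (F e) (e x)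
  change : ∀ e e' x, At e x → At e' x →
    F e (e x) = F e' (e' x) * ((‖(jacM e e' x).det‖ ^ 2 : ℝ) : ℂ)

variable {F G : Chart n Z → Cm n → ℂ}

theorem IsDensC.re (h : IsDensC F) : INT.IsDensity (fun e z => (F e z).re) where
  cont e x hx := Complex.continuous_re.continuousAt.comp (h.cont e x hx)
  change e e' x hx hx' := by
    show (F e (e x)).re = _
    rw [h.change e e' x hx hx', Complex.re_mul_ofReal]

theorem IsDensC.im (h : IsDensC F) : INT.IsDensity (fun e z => (F e z).im) where
  cont e x hx := Complex.continuous_im.continuousAt.comp (h.cont e x hx)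
  change e e' x hx hx' := by
    show (F e (e x)).im = _
    rw [h.change e e' x hx hx', Complex.im_mul_ofReal]

theorem IsDensC.add (h : IsDensC F) (h' : IsDensC G) : IsDensC (fun e z => F e z + G e z) where
  cont e x hx := (h.cont e x hx).add (h'.cont e x hx)
  change e e' x hx hx' := by
    show F e (e x) + G e (e x) = (F e' (e' x) + G e' (e' x)) * _
    rw [h.change e e' x hx hx', h'.change e e' x hx hx']; ring

theorem IsDensC.sub (h : IsDensC F) (h' : IsDensC G) : IsDensC (fun e z => F e z - G e z) where
  cont e x hx := (h.cont e x hx).sub (h'.cont e x hx)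
  change e e' x hx hx' := by
    show F e (e x) - G e (e x) = (F e' (e' x) - G e' (e' x)) * _
    rw [h.change e e' x hx hx', h'.change e e' x hx hx']; ring

theorem IsDensC.neg (h : IsDensC F) : IsDensC (fun e z => -F e z) where
  cont e x hx := (h.cont e x hx).neg
  change e e' x hx hx' := by
    show -F e (e x) = -F e' (e' x) * _
    rw [h.change e e' x hx hx']; ring

theorem IsDensC.const_mul (c : ℂ) (h : IsDensC F) : IsDensC (fun e z => c * F e z) where
  cont e x hx := continuousAt_const.mul (h.cont e x hx)
  change e e' x hx hx' := by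
    show c * F e (e x) = c * F e' (e' x) * _
    rw [h.change e e' x hx hx']; ring

theorem IsDensC.zero : IsDensC (fun (_ : Chart n Z) (_ : Cm n) => (0 : ℂ)) where
  cont _ _ _ := continuousAt_const
  change _ _ _ _ _ := by simp

theorem IsDensC.sum {ι : Type*} (s : Finset ι) {F : ι → Chart n Z → Cm n → ℂ}
    (h : ∀ i ∈ s, IsDensC (F i)) : IsDensC (fun e z => ∑ i ∈ s, F i e z) where
  cont e x hx := tendsto_finset_sum _ fun i hi => (h i hi).cont e x hx
  change e e' x hx hx' := by
    show ∑ i ∈ s, F i e (e x) = (∑ i ∈ s, F i e' (e' x)) * _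
    rw [Finset.sum_mul]
    exact Finset.sum_congr rfl fun i hi => (h i hi).change e e' x hx hx'

theorem IsDensC.smul {χ : Z → ℂ} (hχ : Continuous χ) (h : IsDensC F) :
    IsDensC (fun e z => χ (e.symm z) * F e z) where
  cont e x hx :=
    (hχ.continuousAt.comp (e.continuousAt_symm (e.map_source hx.2))).mul (h.cont e x hx)
  change e e' x hx hx' := by
    show χ (e.symm (e x)) * F e (e x) = χ (e'.symm (e' x)) * F e' (e' x) * _
    rw [h.change e e' x hx hx', e.left_inv hx.2, e'.left_inv hx'.2]; ring

variable [T2Space Z] [CompactSpace Z] [IsManifold 𝓘(ℂ, Cm n) ω Z]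

/-- the integral of a complex valued density -/
def intC (F : Chart n Z → Cm n → ℂ) : ℂ :=
  (INT.intX (fun e z => (F e z).re) : ℂ) + Complex.I * (INT.intX (fun e z => (F e z).im) : ℂ)

theorem intC_re (F : Chart n Z → Cm n → ℂ) : (intC F).re = INT.intX (fun e z => (F e z).re) := by
  simp [intC]

theorem intC_im (F : Chart n Z → Cm n → ℂ) : (intC F).im = INT.intX (fun e z => (F e z).im) := by
  simp [intC]

theorem intC_congr (h : ∀ e x, At e x → F e (e x) = G e (e x)) : intC F = intC G := by
  unfold intC
  rw [INT.intX_congr (D := fun e z => (F e z).re) (D' := fun e z => (G e z).re)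
      fun e x hx => by rw [h e x hx],
    INT.intX_congr (D := fun e z => (F e z).im) (D' := fun e z => (G e z).im)
      fun e x hx => by rw [h e x hx]]

theorem intC_add (h : IsDensC F) (h' : IsDensC G) :
    intC (fun e z => F e z + G e z) = intC F + intC G := by
  apply Complex.ext
  · rw [Complex.add_re, intC_re, intC_re, intC_re, ← INT.intX_add h.re h'.re]
    rfl
  · rw [Complex.add_im, intC_im, intC_im, intC_im, ← INT.intX_add h.im h'.im]
    rfl

theorem intC_sub (h : IsDensC F) (h' : IsDensC G) :
    intC (fun e z => F e z - G e z) = intC F - intC G := by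
  apply Complex.ext
  · rw [Complex.sub_re, intC_re, intC_re, intC_re, ← INT.intX_sub h.re h'.re]
    rfl
  · rw [Complex.sub_im, intC_im, intC_im, intC_im, ← INT.intX_sub h.im h'.im]
    rfl

theorem intC_zero : intC (fun (_ : Chart n Z) (_ : Cm n) => (0 : ℂ)) = 0 := by
  simp [intC, INT.intX_zero]

theorem intC_sum {ι : Type*} (s : Finset ι) {F : ι → Chart n Z → Cm n → ℂ}
    (h : ∀ i ∈ s, IsDensC (F i)) : intC (fun e z => ∑ i ∈ s, F i e z) = ∑ i ∈ s, intC (F i) := by
  classical
  induction s using Finset.induction_on with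
  | empty => simpa using intC_zero
  | insert a s ha ih =>
    simp only [Finset.sum_insert ha]
    rw [intC_add (h a (Finset.mem_insert_self a s))
      (IsDensC.sum s fun i hi => h i (Finset.mem_insert_of_mem hi)),
      ih fun i hi => h i (Finset.mem_insert_of_mem hi)]

theorem intC_const_mul (c : ℂ) (h : IsDensC F) :
    intC (fun e z => c * F e z) = c * intC F := by
  apply Complex.ext
  · rw [Complex.mul_re, intC_re, intC_re, intC_im, ← INT.intX_const_mul, ← INT.intX_const_mul,
      ← INT.intX_sub (h.re.const_mul _) (h.im.const_mul _)]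
    simp only [Complex.mul_re]
  · rw [Complex.mul_im, intC_im, intC_re, intC_im, ← INT.intX_const_mul, ← INT.intX_const_mul,
      ← INT.intX_add (h.im.const_mul _) (h.re.const_mul _)]
    simp only [Complex.mul_im]

theorem intC_neg (h : IsDensC F) : intC (fun e z => -F e z) = -intC F := by
  have := intC_const_mul (-1) h
  simpa using this

theorem intC_conj (F : Chart n Z → Cm n → ℂ) :
    intC (fun e z => (starRingEnd ℂ) (F e z)) = (starRingEnd ℂ) (intC F) := by
  apply Complex.ext
  · rw [Complex.conj_re, intC_re, intC_re]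
    simp only [Complex.conj_re]
  · rw [Complex.conj_im, intC_im, intC_im]
    simp only [Complex.conj_im]
    have := INT.intX_const_mul (fun e z => (F e z).im) (-1)
    simpa using this

theorem integrableOn_of_support (h : IsDensC F) {e : Chart n Z} (he : e ∈ atlas (Cm n) Z)
    {K : Set Z} (hK : IsClosed K) (hKe : K ⊆ e.source)
    (h0 : ∀ e' x, At e' x → x ∉ K → F e' (e' x) = 0) : IntegrableOn (F e) e.target := by
  have h1 : IntegrableOn (fun z => (F e z).re) e.target := by
    refine INT.integrableOn_chart (h.re.continuousOn he) hK hKe fun z hz hzK => ?_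
    have := h0 e (e.symm z) (At.of_target he hz) hzK
    rw [e.right_inv hz] at this
    rw [this, Complex.zero_re]
  have h2 : IntegrableOn (fun z => (F e z).im) e.target := by
    refine INT.integrableOn_chart (h.im.continuousOn he) hK hKe fun z hz hzK => ?_
    have := h0 e (e.symm z) (At.of_target he hz) hzK
    rw [e.right_inv hz] at this
    rw [this, Complex.zero_im]
  have h3 : IntegrableOn (fun z => (((F e z).re : ℝ) : ℂ) + (((F e z).im : ℝ) : ℂ) * Complex.I)
      e.target := (h1.ofReal).add ((h2.ofReal).mul_const _)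
  simpa [Complex.re_add_im] using h3

/-- the integral of a density supported in a chart -/
theorem intC_of_support (h : IsDensC F) {e : Chart n Z} (he : e ∈ atlas (Cm n) Z)
    {K : Set Z} (hK : IsClosed K) (hKe : K ⊆ e.source)
    (h0 : ∀ e' x, At e' x → x ∉ K → F e' (e' x) = 0) : intC F = ∫ z in e.target, F e z := by
  have hi := integrableOn_of_support h he hK hKe h0
  have h1 : INT.intX (fun e z => (F e z).re) = ∫ z in e.target, (F e z).re :=
    INT.intX_of_support h.re he hK hKe fun e' x hx hxK => by
      show (F e' (e' x)).re = 0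
      rw [h0 e' x hx hxK, Complex.zero_re]
  have h2 : INT.intX (fun e z => (F e z).im) = ∫ z in e.target, (F e z).im :=
    INT.intX_of_support h.im he hK hKe fun e' x hx hxK => by
      show (F e' (e' x)).im = 0
      rw [h0 e' x hx hxK, Complex.zero_im]
  have h3 := integral_re_add_im hi
  unfold intC
  rw [h1, h2, mul_comm]
  exact h3

/-- **divergence theorem** for densities supported in a chart -/
theorem intC_piece (h : IsDensC F) {e : Chart n Z} (he : e ∈ atlas (Cm n) Z)
    {K : Set Z} (hK : IsClosed K) (hKe : K ⊆ e.source)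
    (h0 : ∀ e' x, At e' x → x ∉ K → F e' (e' x) = 0) {V : Fin n → Cm n → ℂ}
    (hV : ∀ l, ∀ z ∈ e.target, ContDiffAt ℝ 1 (V l) z)
    (hV0 : ∀ l, ∀ z ∈ e.target, e.symm z ∉ K → V l z = 0)
    (hFV : ∀ z ∈ e.target, F e z = ∑ l, dz l (V l) z) : intC F = 0 := by
  rw [intC_of_support h he hK hKe h0]
  set U : Fin n → Cm n → ℂ := fun l => e.target.indicator (V l) with hU
  set K' : Set (Cm n) := e '' K with hK'
  have hKc : IsCompact K' := hK.isCompact.image_of_continuousOn (e.continuousOn.mono hKe)
  have hKt : K' ⊆ e.target := by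
    rintro _ ⟨x, hx, rfl⟩; exact e.map_source (hKe hx)
  have hsupp : ∀ l, Function.support (U l) ⊆ K' := by
    intro l z hz
    simp only [hU, Function.mem_support] at hz
    have hzt : z ∈ e.target := by
      by_contra h; exact hz (indicator_of_notMem h _)
    rw [indicator_of_mem hzt] at hz
    refine ⟨e.symm z, ?_, e.right_inv hzt⟩
    by_contra hc
    exact hz (hV0 l z hzt hc)
  have hts : ∀ l, tsupport (U l) ⊆ K' := fun l => closure_minimal (hsupp l) hKc.isClosed
  have hucs : ∀ l, HasCompactSupport (U l) := fun l =>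
    hKc.of_isClosed_subset (isClosed_tsupport (U l)) (hts l)
  have hue : ∀ l, ∀ z ∈ e.target, U l =ᶠ[𝓝 z] V l := by
    intro l z hz
    filter_upwards [e.open_target.mem_nhds hz] with y hy
    simp only [hU]
    rw [indicator_of_mem hy]
  have hue0 : ∀ l, ∀ z ∉ e.target, U l =ᶠ[𝓝 z] fun _ => 0 := by
    intro l z hz
    exact notMem_tsupport_iff_eventuallyEq.1 fun h => hz (hKt (hts l h))
  have hus : ∀ l, ContDiff ℝ 1 (U l) := by
    intro l
    rw [contDiff_iff_contDiffAt]
    intro z
    by_cases hz : z ∈ e.target
    · exact (hV l z hz).congr_of_eventuallyEq (hue l z hz)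
    · exact contDiffAt_const.congr_of_eventuallyEq (hue0 l z hz)
  have e1 : ∫ z in e.target, F e z = ∫ z in e.target, ∑ l, dz l (U l) z := by
    refine setIntegral_congr_fun e.open_target.measurableSet fun z hz => ?_
    rw [hFV z hz]
    exact Finset.sum_congr rfl fun l _ => (INT.dz_congr (hue l z hz)).symm
  have e2 : ∫ z in e.target, ∑ l, dz l (U l) z = ∫ z, ∑ l, dz l (U l) z := by
    refine setIntegral_eq_integral_of_forall_compl_eq_zero fun z hz => ?_
    refine Finset.sum_eq_zero fun l _ => ?_
    rw [INT.dz_congr (hue0 l z hz)]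
    simp [dz]
  have h1 : ∀ l, Integrable (fun z => dz l (U l) z) := by
    intro l
    have hv : ∀ v, Integrable (fun z => fderiv ℝ (U l) z v) := fun v =>
      (((hus l).continuous_fderiv (by norm_num)).clm_apply
        continuous_const).integrable_of_hasCompactSupport ((hucs l).fderiv_apply (𝕜 := ℝ) v)
    rw [show (fun z => dz l (U l) z) = dz l (U l) from rfl, INT.dz_fun_eq]
    exact ((hv _).sub ((hv _).const_mul _)).const_mul _
  rw [e1, e2, integral_finset_sum _ fun l _ => h1 l]
  exact Finset.sum_eq_zero fun l _ => INT.integral_dz_eq_zero (hus l) (hucs l) l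

end Vale.Agent.P299.IX.G
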