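import Vale.Agent.P299.H954.IX.G.Sec
import Vale.Agent.P299.H954.IX.G.Int
import Vale.Agent.P299.H954.Zero

/-!
# Global identities on a compact Kähler manifold: adjointness and Bochner-Kodaira-Nakano
-/

open scoped Manifold ContDiff ComplexOrder Topology Matrix
open Vale.Agent.P272.K Vale.Agent.P272.K.C2 Vale.Agent.P299.H954

set_option linter.unusedSectionVars false

noncomputable section

namespace Vale.Agent.P299.IX.G

section loc

variable {n : ℕ} {w : Cm n → Matrix (Fin n) (Fin n) ℂ} {H : Cm n → ℂ} {θ : Fin n → Cm n → ℂ}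
  {z : Cm n} {a b : Cm n → FI n → ℂ}

theorem Dp_congr (h : a =ᶠ[𝓝 z] b) : Dp θ a z = Dp θ b z := by
  unfold Dp
  exact Finset.sum_congr rfl fun l _ => by rw [DV_congr h, h.self_of_nhds]

theorem De_congr (h : a =ᶠ[𝓝 z] b) : De w a z = De w b z := by
  unfold De
  congr 1
  exact Finset.sum_congr rfl fun l _ => by rw [DVb_congr h]

theorem DV_zero (l : Fin n) : DV l (fun _ : Cm n => (0 : FI n → ℂ)) z = 0 := by
  ext i; simp [DV, dz]

theorem DVb_zero (l : Fin n) : DVb l (fun _ : Cm n => (0 : FI n → ℂ)) z = 0 := by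
  ext i; simp [DVb, dzb]

theorem Dp_zero : Dp θ (fun _ => 0) z = 0 := by simp [Dp, DV_zero]

theorem De_zero : De w (fun _ => 0) z = 0 := by simp [De, DVb_zero]

theorem Dp_add (ha : VC 1 a z) (hb : VC 1 b z) :
    Dp θ (fun y => a y + b y) z = Dp θ a z + Dp θ b z := by
  unfold Dp
  rw [← Finset.sum_add_distrib]
  refine Finset.sum_congr rfl fun l _ => ?_
  rw [DV_add ha hb, ← Matrix.mulVec_add, smul_add]
  congr 1
  abel

theorem De_add (ha : VC 1 a z) (hb : VC 1 b z) :
    De w (fun y => a y + b y) z = De w a z + De w b z := by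
  unfold De
  rw [← neg_add, ← Finset.sum_add_distrib]
  congr 1
  exact Finset.sum_congr rfl fun l _ => by rw [DVb_add ha hb, ← Matrix.mulVec_add]

theorem Dp_sum {ι : Type*} (s : Finset ι) {F : ι → Cm n → FI n → ℂ}
    (h : ∀ i ∈ s, VC 1 (F i) z) : Dp θ (fun y => ∑ i ∈ s, F i y) z = ∑ i ∈ s, Dp θ (F i) z := by
  unfold Dp
  rw [Finset.sum_comm]
  refine Finset.sum_congr rfl fun l _ => ?_
  rw [DV_sum s h, Finset.smul_sum, ← Finset.sum_add_distrib, Matrix.mulVec_sum]

theorem De_sum {ι : Type*} (s : Finset ι) {F : ι → Cm n → FI n → ℂ}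
    (h : ∀ i ∈ s, VC 1 (F i) z) : De w (fun y => ∑ i ∈ s, F i y) z = ∑ i ∈ s, De w (F i) z := by
  unfold De
  rw [Finset.sum_neg_distrib, Finset.sum_comm]
  congr 1
  refine Finset.sum_congr rfl fun l _ => ?_
  rw [DVb_sum s h, Matrix.mulVec_sum]

/-- Leibniz rule for `D'` -/
theorem Dp_smul {f : Cm n → ℂ} (hf : ContDiffAt ℝ 1 f z) (ha : VC 1 a z) :
    Dp θ (fun y => f y • a y) z = f z • Dp θ a z + ∑ l, dz l f z • (eps l *ᵥ a z) := by
  unfold Dp
  rw [Finset.smul_sum, ← Finset.sum_add_distrib]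
  refine Finset.sum_congr rfl fun l _ => ?_
  rw [DV_smul hf ha, ← Matrix.mulVec_smul, ← Matrix.mulVec_smul, ← Matrix.mulVec_add, smul_add,
    smul_comm (f z) (θ l z)]
  congr 1
  abel

/-- Leibniz rule for `δ` -/
theorem De_smul {f : Cm n → ℂ} (hf : ContDiffAt ℝ 1 f z) (ha : VC 1 a z) :
    De w (fun y => f y • a y) z = f z • De w a z - ∑ b, dzb b f z • (epd b w z *ᵥ a z) := by
  unfold De
  rw [smul_neg, Finset.smul_sum, ← neg_add', ← Finset.sum_add_distrib]
  congr 1
  refine Finset.sum_congr rfl fun b _ => ?_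
  rw [DVb_smul hf ha, Matrix.mulVec_add, Matrix.mulVec_smul, Matrix.mulVec_smul, add_comm]

theorem Ld_herm (h : KAt w z) : (Ld w z)ᴴ = Ld w z := by
  rw [Ld, ← lam_conjTranspose, h.inv_herm.eq]

theorem Ld_posDef (h : KAt w z) : (Ld w z).PosDef := lam_posDef h.posz.inv

theorem rho_pos (hH : LAt H θ z) (h : KAt w z) : 0 < rho H w z :=
  mul_pos hH.posz h.posz.det_pos

theorem rho_conj (hH : LAt H θ z) (h : KAt w z) :
    (starRingEnd ℂ) (rho H w z) = rho H w z := by
  have := rho_pos hH h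
  rw [Complex.conj_eq_iff_im]
  exact (Complex.lt_def.1 this).2.symm

/-- Hermitian symmetry -/
theorem hp_conj (hH : LAt H θ z) (h : KAt w z) (u v : FI n → ℂ) :
    (starRingEnd ℂ) (hp H w z u v) = hp H w z v u := by
  rw [hp, map_mul, rho_conj hH h, pr_conj, hp, pr_mulVec_right, Ld_herm h]

/-- positivity -/
theorem hp_self_nonneg (hH : LAt H θ z) (h : KAt w z) (u : FI n → ℂ) : 0 ≤ hp H w z u u := by
  refine mul_nonneg (rho_pos hH h).le ?_
  have h1 := (Ld_posDef h).posSemidef.dotProduct_mulVec_nonneg u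
  have h2 : pr (Ld w z *ᵥ u) u = star u ⬝ᵥ (Ld w z *ᵥ u) := by
    rw [pr, dotProduct]
    exact Finset.sum_congr rfl fun i _ => mul_comm _ _
  rw [h2]
  exact h1

theorem hp_self_pos (hH : LAt H θ z) (h : KAt w z) {u : FI n → ℂ} (hu : u ≠ 0) :
    0 < hp H w z u u := by
  refine mul_pos (rho_pos hH h) ?_
  have h1 := (Ld_posDef h).dotProduct_mulVec_pos hu
  have h2 : pr (Ld w z *ᵥ u) u = star u ⬝ᵥ (Ld w z *ᵥ u) := by
    rw [pr, dotProduct]
    exact Finset.sum_congr rfl fun i _ => mul_comm _ _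
  rw [h2]
  exact h1

theorem hp_epd (hH : LAt H θ z) (h : KAt w z) (l : Fin n) (u v : FI n → ℂ) :
    hp H w z (epd l w z *ᵥ u) v = hp H w z u (eps l *ᵥ v) := by
  rw [← hp_conj hH h, ← hp_eps h, hp_conj hH h]

/-- a positive semidefinite matrix is `C Cᴴ` -/
theorem exists_sqrt {ι : Type*} [Fintype ι] [DecidableEq ι] {R : Matrix ι ι ℂ}
    (hR : R.PosSemidef) : ∃ C : Matrix ι ι ℂ, R = C * Cᴴ := by
  obtain ⟨B, hB⟩ := exists_factor hR
  exact ⟨Bᴴ, by rw [hB, Matrix.conjTranspose_conjTranspose]⟩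

theorem sum_hp_sqrt {R C : Matrix (Fin n) (Fin n) ℂ} (hC : R = C * Cᴴ) (X : Fin n → FI n → ℂ) :
    ∑ l, ∑ b, R l b * hp H w z (X l) (X b) =
      ∑ m, hp H w z (∑ l, C l m • X l) (∑ b, C b m • X b) := by
    simp only [hp_sum_left, hp_sum_right, hp_smul_left, hp_smul_right]
    rw [Finset.sum_comm]
    have : ∀ b, ∑ l, R l b * hp H w z (X l) (X b) =
        ∑ l, ∑ m, C l m * ((starRingEnd ℂ) (C b m) * hp H w z (X l) (X b)) := by
      intro b
      refine Finset.sum_congr rfl fun l _ => ?_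
      rw [hC, Matrix.mul_apply, Finset.sum_mul]
      exact Finset.sum_congr rfl fun m _ => by rw [Matrix.conjTranspose_apply]; ring!
    simp only [this]
    have h3 : ∀ b, ∑ l, ∑ m, C l m * ((starRingEnd ℂ) (C b m) * hp H w z (X l) (X b)) =
        ∑ m, ∑ l, C l m * ((starRingEnd ℂ) (C b m) * hp H w z (X l) (X b)) := fun b =>
      Finset.sum_comm
    simp only [h3]
    rw [Finset.sum_comm]
    refine Finset.sum_congr rfl fun m _ => Finset.sum_congr rfl fun b _ => ?_
    rw [Finset.mul_sum]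
    exact Finset.sum_congr rfl fun l _ => by ring

/-- a semidefinite contraction is nonnegative -/
theorem sum_hp_nonneg (hH : LAt H θ z) (h : KAt w z) {R : Matrix (Fin n) (Fin n) ℂ}
    (hR : R.PosSemidef) (X : Fin n → FI n → ℂ) :
    0 ≤ ∑ l, ∑ b, R l b * hp H w z (X l) (X b) := by
  obtain ⟨C, hC⟩ := exists_sqrt hR
  rw [sum_hp_sqrt hC]
  exact Finset.sum_nonneg fun m _ => hp_self_nonneg hH h _

/-- a definite contraction vanishes only for the zero family -/
theorem eq_zero_of_sum_hp (hH : LAt H θ z) (h : KAt w z) {R : Matrix (Fin n) (Fin n) ℂ}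
    (hR : R.PosDef) {X : Fin n → FI n → ℂ}
    (h0 : ∑ l, ∑ b, R l b * hp H w z (X l) (X b) = 0) (b : Fin n) : X b = 0 := by
  obtain ⟨B, hB⟩ := exists_factor hR.posSemidef
  have hBu : B.det ≠ 0 := det_ne_zero_of_factor hR hB
  rw [sum_hp_sqrt (C := Bᴴ) (by rw [hB, Matrix.conjTranspose_conjTranspose]) X] at h0
  have h1 : ∀ m, ∑ l, Bᴴ l m • X l = 0 := by
    intro m
    by_contra hne
    have h2 : 0 < ∑ m, hp H w z (∑ l, Bᴴ l m • X l) (∑ b, Bᴴ b m • X b) :=
      Finset.sum_pos' (fun m _ => hp_self_nonneg hH h _)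
        ⟨m, Finset.mem_univ m, hp_self_pos hH h hne⟩
    exact h2.ne' h0
  have hu : IsUnit (Bᴴ).det := by
    rw [Matrix.det_conjTranspose]
    exact isUnit_iff_ne_zero.2 (star_ne_zero.2 hBu)
  have h3 : ∑ m, (Bᴴ)⁻¹ m b • ∑ l, Bᴴ l m • X l = X b := by
    simp only [Finset.smul_sum, smul_smul]
    rw [Finset.sum_comm]
    have : ∀ l, ∑ m, ((Bᴴ)⁻¹ m b * Bᴴ l m) • X l = (Bᴴ * (Bᴴ)⁻¹) l b • X l := by
      intro l
      rw [← Finset.sum_smul, Matrix.mul_apply]
      congr 1
      exact Finset.sum_congr rfl fun m _ => mul_comm _ _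
    simp only [this, Matrix.mul_nonsing_inv _ hu, Matrix.one_apply, ite_smul, one_smul, zero_smul]
    simp
  rw [← h3]
  simp only [h1, smul_zero, Finset.sum_const_zero]

theorem gradb_nonneg (hH : LAt H θ z) (h : KAt w z) : 0 ≤ gradb H w a a z := by
  have h1 := sum_hp_nonneg hH h h.posz.inv.posSemidef fun l => DVb l a z
  rw [gradb, Finset.sum_comm]
  exact h1

theorem DVb_eq_zero_of_gradb (hH : LAt H θ z) (h : KAt w z) (h0 : gradb H w a a z = 0)
    (b : Fin n) : DVb b a z = 0 := by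
  rw [gradb, Finset.sum_comm] at h0
  exact eq_zero_of_sum_hp hH h h.posz.inv (X := fun l => DVb l a z) h0 b

theorem Qk_nonneg (hH : LAt H θ z) (h : KAt w z)
    (hR : (Matrix.of fun l b => -(dzb b (θ l) z)).PosSemidef) (u : FI n → ℂ) :
    0 ≤ hp H w z (Qk θ w z u) u := by
  have h1 := sum_hp_nonneg hH h hR fun l => eps l *ᵥ u
  have h2 : hp H w z (Qk θ w z u) u =
      ∑ l, ∑ b, (-(dzb b (θ l) z)) * hp H w z (eps l *ᵥ u) (eps b *ᵥ u) := by
    rw [Qk, hp_sum_left]
    refine Finset.sum_congr rfl fun l _ => ?_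
    rw [hp_sum_left]
    refine Finset.sum_congr rfl fun b _ => ?_
    rw [hp_smul_left, hp_epd hH h]
  rw [h2]
  exact h1

end loc

section glob

variable {n : ℕ} {Z : Type*} [TopologicalSpace Z] [ChartedSpace (Cm n) Z]
  {L : HLB n Z} {w : D.FormM n Z} {g g' h h' : Frm n Z} [T2Space Z] [CompactSpace Z]
  [IsManifold 𝓘(ℂ, Cm n) ω Z]

theorem dens_hpL (hw : IsKahler w) (hL : IsHLB L) (hg : IsSecL L g) (hh : IsSecL L h) :
    IsDensC (hpL L w g h) where
  cont _ _ hx := (hpL_smooth hw hL hg hh hx).continuousAt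
  change _ _ _ hx hx' := hpL_change hw hL hg hh hx hx'

theorem dens_gradbL (hw : IsKahler w) (hL : IsHLB L) (hg : IsSecL L g) (hh : IsSecL L h) :
    IsDensC (gradbL L w g h) where
  cont _ _ hx := (gradbL_smooth hw hL hg hh hx).continuousAt
  change _ _ _ hx hx' := gradbL_change hw hL hg hh hx hx'

/-- the `L²` Hermitian product, linear in the first variable -/
def ipL (L : HLB n Z) (w : D.FormM n Z) (g h : Frm n Z) : ℂ := intC (hpL L w g h)

theorem ipL_congr (hg : ∀ e x, At e x → g e (e x) = g' e (e x))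
    (hh : ∀ e x, At e x → h e (e x) = h' e (e x)) : ipL L w g h = ipL L w g' h' :=
  intC_congr fun e x hx => by rw [hpL, hpL, hg e x hx, hh e x hx]

theorem ipL_add_left (hw : IsKahler w) (hL : IsHLB L) (hg : IsSecL L g) (hg' : IsSecL L g')
    (hh : IsSecL L h) : ipL L w (fun e z => g e z + g' e z) h = ipL L w g h + ipL L w g' h := by
  unfold ipL
  rw [← intC_add (dens_hpL hw hL hg hh) (dens_hpL hw hL hg' hh)]
  exact intC_congr fun e x _ => hp_add_left _ _ _

theorem ipL_add_right (hw : IsKahler w) (hL : IsHLB L) (hg : IsSecL L g) (hh : IsSecL L h)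
    (hh' : IsSecL L h') : ipL L w g (fun e z => h e z + h' e z) = ipL L w g h + ipL L w g h' := by
  unfold ipL
  rw [← intC_add (dens_hpL hw hL hg hh) (dens_hpL hw hL hg hh')]
  exact intC_congr fun e x _ => hp_add_right _ _ _

theorem ipL_smul_left (hw : IsKahler w) (hL : IsHLB L) (hg : IsSecL L g) (hh : IsSecL L h)
    (c : ℂ) : ipL L w (fun e z => c • g e z) h = c * ipL L w g h := by
  unfold ipL
  rw [← intC_const_mul c (dens_hpL hw hL hg hh)]
  exact intC_congr fun e x _ => hp_smul_left _ _ _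

theorem ipL_smul_right (hw : IsKahler w) (hL : IsHLB L) (hg : IsSecL L g) (hh : IsSecL L h)
    (c : ℂ) : ipL L w g (fun e z => c • h e z) = (starRingEnd ℂ) c * ipL L w g h := by
  unfold ipL
  rw [← intC_const_mul _ (dens_hpL hw hL hg hh)]
  exact intC_congr fun e x _ => hp_smul_right _ _ _

theorem ipL_conj (hw : IsKahler w) (hL : IsHLB L) (g h : Frm n Z) :
    (starRingEnd ℂ) (ipL L w g h) = ipL L w h g := by
  unfold ipL
  rw [← intC_conj]
  exact intC_congr fun e x hx => hp_conj (hL.lat e x hx) (kat w hw hx) _ _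

theorem ipL_zero_left (h : Frm n Z) : ipL L w (fun _ _ => 0) h = 0 := by
  unfold ipL
  rw [← intC_zero (n := n) (Z := Z)]
  exact intC_congr fun e x _ => hp_zero_left _

theorem ipL_sum_left (hw : IsKahler w) (hL : IsHLB L) {ι : Type*} (s : Finset ι)
    {G : ι → Frm n Z} (hG : ∀ i ∈ s, IsSecL L (G i)) (hh : IsSecL L h) :
    ipL L w (fun e z => ∑ i ∈ s, G i e z) h = ∑ i ∈ s, ipL L w (G i) h := by
  unfold ipL
  rw [← intC_sum s fun i hi => dens_hpL hw hL (hG i hi) hh]
  exact intC_congr fun e x _ => hp_sum_left _ _ _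

theorem ipL_sum_right (hw : IsKahler w) (hL : IsHLB L) {ι : Type*} (s : Finset ι)
    {G : ι → Frm n Z} (hG : ∀ i ∈ s, IsSecL L (G i)) (hh : IsSecL L h) :
    ipL L w h (fun e z => ∑ i ∈ s, G i e z) = ∑ i ∈ s, ipL L w h (G i) := by
  unfold ipL
  rw [← intC_sum s fun i hi => dens_hpL hw hL hh (hG i hi)]
  exact intC_congr fun e x _ => hp_sum_right _ _ _

theorem ipL_self_im (hw : IsKahler w) (hL : IsHLB L) (g : Frm n Z) : (ipL L w g g).im = 0 :=
  Complex.conj_eq_iff_im.1 (ipL_conj hw hL g g)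

theorem ipL_self_nonneg (hw : IsKahler w) (hL : IsHLB L) (g : Frm n Z) : 0 ≤ ipL L w g g := by
  rw [Complex.le_def]
  refine ⟨?_, (ipL_self_im hw hL g).symm⟩
  rw [ipL, intC_re]
  exact INT.intX_nonneg fun e x hx =>
    (Complex.le_def.1 (hp_self_nonneg (hL.lat e x hx) (kat w hw hx) _)).1

/-- the pieces of a section -/
def pce (i : Fin (INT.part n Z).N) (g : Frm n Z) : Frm n Z := fun e z =>
  (((INT.part n Z).ρ i (e.symm z) : ℝ) : ℂ) • g e z

theorem IsSecL.pce (hg : IsSecL L g) (i : Fin (INT.part n Z).N) : IsSecL L (pce i g) :=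
  hg.smul (SmoothFn.smC ((INT.part n Z).smooth i))

theorem sum_pce (g : Frm n Z) (e : Chart n Z) (z : Cm n) : ∑ i, pce i g e z = g e z := by
  simp only [G.pce]
  rw [← Finset.sum_smul, ← Complex.ofReal_sum, (INT.part n Z).sum, Complex.ofReal_one, one_smul]

theorem sum_pce' (g : Frm n Z) (e : Chart n Z) : (fun z => ∑ i, pce i g e z) = g e :=
  funext fun z => sum_pce g e z

theorem pce_zero {i : Fin (INT.part n Z).N} {e : Chart n Z} {x : Z} (hx : At e x)
    (hxK : x ∉ tsupport ((INT.part n Z).ρ i)) : pce i g e =ᶠ[𝓝 (e x)] fun _ => 0 := by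
  have h1 : ∀ᶠ y in 𝓝 (e x), e.symm y ∈ (tsupport ((INT.part n Z).ρ i))ᶜ := by
    apply (e.continuousAt_symm (e.map_source hx.2)).eventually_mem
    rw [e.left_inv hx.2]
    exact (isClosed_tsupport _).isOpen_compl.mem_nhds hxK
  filter_upwards [h1] with y hy
  simp only [G.pce]
  rw [image_eq_zero_of_notMem_tsupport hy, Complex.ofReal_zero, zero_smul]

theorem sec_VC1 (hg : IsSecL L g) {e : Chart n Z} {x : Z} (hx : At e x) : VC 1 (g e) (e x) :=
  (hg.smooth e x hx).mono (by exact_mod_cast le_top)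

theorem sec_VC2 (hg : IsSecL L g) {e : Chart n Z} {x : Z} (hx : At e x) : VC 2 (g e) (e x) :=
  (hg.smooth e x hx).mono (by norm_cast)

theorem at_target {e : Chart n Z} (he : e ∈ atlas (Cm n) Z) {z : Cm n} (hz : z ∈ e.target) :
    ∃ x, At e x ∧ e x = z ∧ e.symm z = x :=
  ⟨e.symm z, At.of_target he hz, e.right_inv hz, rfl⟩

/-- **`δ` is the formal adjoint of `D'`** -/
theorem ip_dp (hw : IsKahler w) (hL : IsHLB L) (hg : IsSecL L g) (hh : IsSecL L h) :
    ipL L w (DpL L g) h = ipL L w g (DeX w h) := by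
  have key : ∀ i, ipL L w (DpL L (pce i g)) h = ipL L w (pce i g) (DeX w h) := by
    intro i
    have hgi := hg.pce i
    rw [← sub_eq_zero, ipL, ipL, ← intC_sub (dens_hpL hw hL (hgi.dp hw hL) hh)
      (dens_hpL hw hL hgi (hh.de hw hL))]
    refine intC_piece ((dens_hpL hw hL (hgi.dp hw hL) hh).sub
      (dens_hpL hw hL hgi (hh.de hw hL))) ((INT.part n Z).mem i) (isClosed_tsupport _)
      ((INT.part n Z).supp i) (V := fun l y => hp (L.H ((INT.part n Z).e i))
        (w ((INT.part n Z).e i)) y (eps l *ᵥ pce i g ((INT.part n Z).e i) y)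
        (h ((INT.part n Z).e i) y)) ?_ ?_ ?_ ?_
    · intro e x hx hxK
      have h1 := pce_zero (g := g) hx hxK
      have h2 : DpL L (pce i g) e (e x) = 0 := by
        rw [DpL, Dp_congr h1, Dp_zero]
      rw [hpL, hpL, h2, h1.self_of_nhds, hp_zero_left, hp_zero_left, sub_zero]
    · intro l z hz
      obtain ⟨x, hx, rfl, -⟩ := at_target ((INT.part n Z).mem i) hz
      have h1 : ContDiffAt ℝ ∞ (fun y => hp (L.H ((INT.part n Z).e i))
        (w ((INT.part n Z).e i)) y (eps l *ᵥ pce i g ((INT.part n Z).e i) y)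
        (h ((INT.part n Z).e i) y)) (((INT.part n Z).e i) x) :=
        (contDiffAt_rho (hL.lat _ x hx) (kat w hw hx)).mul
        (contDiffAt_pr (VC.mulVec (MC_Ld (kat w hw hx)) (VC_constMul _ (hgi.smooth _ x hx)))
          (hh.smooth _ x hx))
      exact h1.of_le (by exact_mod_cast le_top)
    · intro l z hz hzK
      obtain ⟨x, hx, rfl, hx2⟩ := at_target ((INT.part n Z).mem i) hz
      rw [hx2] at hzK
      show hp _ _ _ (eps l *ᵥ pce i g ((INT.part n Z).e i) (((INT.part n Z).e i) x)) _ = 0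
      rw [(pce_zero (g := g) hx hzK).self_of_nhds, Matrix.mulVec_zero, hp_zero_left]
    · intro z hz
      obtain ⟨x, hx, rfl, -⟩ := at_target ((INT.part n Z).mem i) hz
      exact (div_one (hL.lat _ x hx) (kat w hw hx) (sec_VC1 hgi hx) (sec_VC1 hh hx)).symm
  have e1 : ipL L w (DpL L g) h = ∑ i, ipL L w (DpL L (pce i g)) h := by
    rw [← ipL_sum_left hw hL Finset.univ (fun i _ => (hg.pce i).dp hw hL) hh]
    refine ipL_congr (fun e x hx => ?_) fun _ _ _ => rfl
    have := Dp_sum (θ := L.θ e) Finset.univ (F := fun i => pce i g e) (z := e x)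
      fun i _ => sec_VC1 (hg.pce i) hx
    rw [sum_pce'] at this
    exact this
  have e2 : ipL L w g (DeX w h) = ∑ i, ipL L w (pce i g) (DeX w h) := by
    rw [← ipL_sum_left hw hL Finset.univ (fun i _ => hg.pce i) (hh.de hw hL)]
    exact ipL_congr (fun e x _ => (sum_pce g e (e x)).symm) fun _ _ _ => rfl
  rw [e1, e2]
  exact Finset.sum_congr rfl fun i _ => key i

theorem ip_de (hw : IsKahler w) (hL : IsHLB L) (hg : IsSecL L g) (hh : IsSecL L h) :
    ipL L w (DeX w g) h = ipL L w g (DpL L h) := by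
  rw [← ipL_conj hw hL h, ← ip_dp hw hL hh hg, ipL_conj hw hL]

/-- `D' + δ` is symmetric -/
theorem ip_dd (hw : IsKahler w) (hL : IsHLB L) (hg : IsSecL L g) (hh : IsSecL L h) :
    ipL L w (DDL L w g) h = ipL L w g (DDL L w h) := by
  have e1 : ipL L w (DDL L w g) h = ipL L w (DpL L g) h + ipL L w (DeX w g) h :=
    ipL_add_left hw hL (hg.dp hw hL) (hg.de hw hL) hh
  have e2 : ipL L w g (DDL L w h) = ipL L w g (DpL L h) + ipL L w g (DeX w h) :=
    ipL_add_right hw hL hg (hh.dp hw hL) (hh.de hw hL)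
  rw [e1, e2, ip_dp hw hL hg hh, ip_de hw hL hg hh, add_comm]

/-- the Laplacian `D'δ + δD'` -/
def lapL (L : HLB n Z) (w : D.FormM n Z) (g : Frm n Z) : Frm n Z := fun e z =>
  DpL L (DeX w g) e z + DeX w (DpL L g) e z

theorem gradb_sum_right {w : Cm n → Matrix (Fin n) (Fin n) ℂ} {H : Cm n → ℂ} {z : Cm n}
    {a : Cm n → FI n → ℂ} {ι : Type*} (s : Finset ι) {F : ι → Cm n → FI n → ℂ}
    (hF : ∀ i ∈ s, VC 1 (F i) z) :
    gradb H w a (fun y => ∑ i ∈ s, F i y) z = ∑ i ∈ s, gradb H w a (F i) z := by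
  have h1 : ∀ l b, (w z)⁻¹ b l * hp H w z (DVb b a z) (DVb l (fun y => ∑ i ∈ s, F i y) z) =
      ∑ i ∈ s, (w z)⁻¹ b l * hp H w z (DVb b a z) (DVb l (F i) z) := by
    intro l b
    rw [DVb_sum s hF, hp_sum_right, Finset.mul_sum]
  simp only [gradb, h1]
  have h2 : ∀ l, ∑ b, ∑ i ∈ s, (w z)⁻¹ b l * hp H w z (DVb b a z) (DVb l (F i) z) =
      ∑ i ∈ s, ∑ b, (w z)⁻¹ b l * hp H w z (DVb b a z) (DVb l (F i) z) := fun l =>
    Finset.sum_comm
  simp only [h2]
  exact Finset.sum_comm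

/-- **weak Bochner-Kodaira-Nakano identity** -/
theorem ip_lap (hw : IsKahler w) (hL : IsHLB L) (hg : IsSecL L g) (hh : IsSecL L h) :
    ipL L w (lapL L w g) h = ipL L w (QL L w g) h + intC (gradbL L w g h) := by
  have hlap : IsSecL L (lapL L w g) :=
    ((hg.de hw hL).dp hw hL).add ((hg.dp hw hL).de hw hL)
  have hq := hg.q hw hL
  have key : ∀ i, ipL L w (QL L w g) (pce i h) + intC (gradbL L w g (pce i h)) -
      ipL L w (lapL L w g) (pce i h) = 0 := by
    intro i
    have hhi := hh.pce i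
    have hD := ((dens_hpL hw hL hq hhi).add (dens_gradbL hw hL hg hhi)).sub
      (dens_hpL hw hL hlap hhi)
    rw [ipL, ipL, ← intC_add (dens_hpL hw hL hq hhi) (dens_gradbL hw hL hg hhi),
      ← intC_sub ((dens_hpL hw hL hq hhi).add (dens_gradbL hw hL hg hhi))
        (dens_hpL hw hL hlap hhi)]
    refine intC_piece hD ((INT.part n Z).mem i) (isClosed_tsupport _)
      ((INT.part n Z).supp i) (V := fun l y => hp (L.H ((INT.part n Z).e i))
        (w ((INT.part n Z).e i)) y (upb l (w ((INT.part n Z).e i)) (g ((INT.part n Z).e i)) y)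
        (pce i h ((INT.part n Z).e i) y)) ?_ ?_ ?_ ?_
    · intro e x hx hxK
      have h1 := pce_zero (g := h) hx hxK
      have h2 : gradbL L w g (pce i h) e (e x) = 0 := by
        rw [gradbL, gradb]
        refine Finset.sum_eq_zero fun l _ => Finset.sum_eq_zero fun b _ => ?_
        rw [DVb_congr h1, DVb_zero, hp_zero_right, mul_zero]
      rw [hpL, hpL, h2, h1.self_of_nhds, hp_zero_right, hp_zero_right]
      simp
    · intro l z hz
      obtain ⟨x, hx, rfl, -⟩ := at_target ((INT.part n Z).mem i) hz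
      have hup : VC ∞ (upb l (w ((INT.part n Z).e i)) (g ((INT.part n Z).e i)))
          (((INT.part n Z).e i) x) := by
        show VC ∞ (fun y => ∑ b, (w ((INT.part n Z).e i) y)⁻¹ b l •
          DVb b (g ((INT.part n Z).e i)) y) (((INT.part n Z).e i) x)
        exact VC.sum _ fun b _ => VC.smul ((kat w hw hx).inv b l)
          ((hg.smooth _ x hx).DVb inf_add_one)
      have h1 : ContDiffAt ℝ ∞ (fun y => hp (L.H ((INT.part n Z).e i))
        (w ((INT.part n Z).e i)) y (upb l (w ((INT.part n Z).e i)) (g ((INT.part n Z).e i)) y)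
        (pce i h ((INT.part n Z).e i) y)) (((INT.part n Z).e i) x) :=
        (contDiffAt_rho (hL.lat _ x hx) (kat w hw hx)).mul
        (contDiffAt_pr (VC.mulVec (MC_Ld (kat w hw hx)) hup)
          (hhi.smooth ((INT.part n Z).e i) x hx))
      exact h1.of_le (by exact_mod_cast le_top)
    · intro l z hz hzK
      obtain ⟨x, hx, rfl, hx2⟩ := at_target ((INT.part n Z).mem i) hz
      rw [hx2] at hzK
      show hp _ _ _ _ (pce i h ((INT.part n Z).e i) (((INT.part n Z).e i) x)) = 0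
      rw [(pce_zero (g := h) hx hzK).self_of_nhds, hp_zero_right]
    · intro z hz
      obtain ⟨x, hx, rfl, -⟩ := at_target ((INT.part n Z).mem i) hz
      rw [div_two (hL.lat _ x hx) (kat w hw hx) (sec_VC2 hg hx) (sec_VC1 hhi hx)]
      simp only [hpL, gradbL, gradb, QL, lapL, DpL, DeX]
      ring
  have e1 : ∀ G, IsSecL L G → ipL L w G h = ∑ i, ipL L w G (pce i h) := by
    intro G hG
    rw [← ipL_sum_right hw hL Finset.univ (fun i _ => hh.pce i) hG]
    exact ipL_congr (fun _ _ _ => rfl) fun e x _ => (sum_pce h e (e x)).symm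
  have e2 : intC (gradbL L w g h) = ∑ i, intC (gradbL L w g (pce i h)) := by
    rw [← intC_sum Finset.univ fun i _ => dens_gradbL hw hL hg (hh.pce i)]
    refine intC_congr fun e x hx => ?_
    have := gradb_sum_right (w := w e) (H := L.H e) (a := g e) Finset.univ
      (F := fun i => pce i h e) (z := e x) fun i _ => sec_VC1 (hh.pce i) hx
    rw [sum_pce'] at this
    exact this
  rw [e1 _ hlap, e1 _ hq, e2, ← Finset.sum_add_distrib]
  exact Finset.sum_congr rfl fun i _ => (sub_eq_zero.1 (key i)).symm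

theorem ip_dp_de (hw : IsKahler w) (hL : IsHLB L) (hg : IsSecL L g) :
    ipL L w (DpL L g) (DeX w g) = 0 := by
  rw [← ip_dp hw hL (hg.dp hw hL) hg, ← ipL_zero_left (L := L) (w := w) g]
  refine ipL_congr (fun e x hx => ?_) fun _ _ _ => rfl
  exact Dp_Dp (hL.lat e x hx) (sec_VC2 hg hx)

/-- `‖(D'+δ)g‖² = ⟨(D'δ+δD')g, g⟩` -/
theorem ip_dd_self (hw : IsKahler w) (hL : IsHLB L) (hg : IsSecL L g) :
    ipL L w (DDL L w g) (DDL L w g) = ipL L w (lapL L w g) g := by
  have hp := hg.dp hw hL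
  have hd := hg.de hw hL
  have e1 : ipL L w (DDL L w g) (DDL L w g) =
      ipL L w (DpL L g) (DDL L w g) + ipL L w (DeX w g) (DDL L w g) :=
    ipL_add_left hw hL hp hd (hg.dd hw hL)
  have e2 : ipL L w (DpL L g) (DDL L w g) =
      ipL L w (DpL L g) (DpL L g) + ipL L w (DpL L g) (DeX w g) :=
    ipL_add_right hw hL hp hp hd
  have e3 : ipL L w (DeX w g) (DDL L w g) =
      ipL L w (DeX w g) (DpL L g) + ipL L w (DeX w g) (DeX w g) :=
    ipL_add_right hw hL hd hp hd
  have e4 : ipL L w (DeX w g) (DpL L g) = 0 := by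
    rw [← ipL_conj hw hL, ip_dp_de hw hL hg, map_zero]
  have e5 : ipL L w (lapL L w g) g =
      ipL L w (DpL L (DeX w g)) g + ipL L w (DeX w (DpL L g)) g :=
    ipL_add_left hw hL (hd.dp hw hL) (hp.de hw hL) hg
  rw [e1, e2, e3, ip_dp_de hw hL hg, e4, e5, ip_dp hw hL hd hg, ip_de hw hL hp hg]
  ring

/-- **Bochner-Kodaira-Nakano** -/
theorem bkn (hw : IsKahler w) (hL : IsHLB L) (hg : IsSecL L g) :
    ipL L w (DDL L w g) (DDL L w g) = ipL L w (QL L w g) g + intC (gradbL L w g g) := by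
  rw [ip_dd_self hw hL hg, ip_lap hw hL hg hg]

/-- the curvature of the line bundle is semipositive -/
def SemiPos (L : HLB n Z) : Prop :=
  ∀ e x, At e x → (Matrix.of fun l b => -(dzb b (L.θ e l) (e x))).PosSemidef

theorem re_ip_q_nonneg (hw : IsKahler w) (hL : IsHLB L) (hp : SemiPos L) (g : Frm n Z) :
    0 ≤ (ipL L w (QL L w g) g).re := by
  rw [ipL, intC_re]
  exact INT.intX_nonneg fun e x hx =>
    (Complex.le_def.1 (Qk_nonneg (hL.lat e x hx) (kat w hw hx) (hp e x hx) _)).1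

theorem re_gradb_nonneg (hw : IsKahler w) (hL : IsHLB L) (g : Frm n Z) :
    0 ≤ (intC (gradbL L w g g)).re := by
  rw [intC_re]
  exact INT.intX_nonneg fun e x hx =>
    (Complex.le_def.1 (gradb_nonneg (hL.lat e x hx) (kat w hw hx))).1

/-- **BKN inequality** -/
theorem bkn_le (hw : IsKahler w) (hL : IsHLB L) (hp : SemiPos L) (hg : IsSecL L g) :
    (intC (gradbL L w g g)).re ≤ (ipL L w (DDL L w g) (DDL L w g)).re := by
  rw [bkn hw hL hg, Complex.add_re]
  linarith [re_ip_q_nonneg hw hL hp g]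

/-- a continuous nonnegative density with integral zero vanishes -/
theorem dens_eq_zero {F : Chart n Z → Cm n → ℂ} (hF : IsDensC F)
    (hF0 : ∀ e x, At e x → 0 ≤ F e (e x)) (h0 : (intC F).re ≤ 0) {e : Chart n Z} {x : Z}
    (hx : At e x) : F e (e x) = 0 := by
  by_contra hne
  have h1 : ∀ e', At e' x → 0 < (F e' (e' x)).re := by
    intro e' hx'
    have h2 : 0 < F e (e x) := lt_of_le_of_ne (hF0 e x hx) (Ne.symm hne)
    have h3 := hF.change e e' x hx hx'
    have h4 : F e' (e' x) ≠ 0 := by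
      intro h5
      rw [h5, zero_mul] at h3
      exact hne h3
    exact (Complex.lt_def.1 (lt_of_le_of_ne (hF0 e' x hx') (Ne.symm h4))).1
  have h2 := intX_pos_of_pos hF.re (fun e x hx => (Complex.le_def.1 (hF0 e x hx)).1) h1
  rw [intC_re] at h0
  exact absurd h2 (not_lt.2 h0)

/-- **the kernel of `D' + δ` consists of holomorphic sections** -/
theorem dbar_zero (hw : IsKahler w) (hL : IsHLB L) (hp : SemiPos L) (hg : IsSecL L g)
    (h0 : ∀ e x, At e x → DDL L w g e (e x) = 0) {e : Chart n Z} {x : Z} (hx : At e x)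
    (b : Fin n) : DVb b (g e) (e x) = 0 := by
  have h1 : ipL L w (DDL L w g) (DDL L w g) = 0 := by
    rw [← ipL_zero_left (L := L) (w := w) (DDL L w g)]
    exact ipL_congr h0 fun _ _ _ => rfl
  have h2 := bkn_le hw hL hp hg
  rw [h1, Complex.zero_re] at h2
  have h3 := dens_eq_zero (dens_gradbL hw hL hg hg)
    (fun e x hx => gradb_nonneg (hL.lat e x hx) (kat w hw hx)) h2 hx
  exact DVb_eq_zero_of_gradb (hL.lat e x hx) (kat w hw hx) h3 b

/-- the kernel of `D' + δ`: `⟨Q g, g⟩ = 0` pointwise -/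
theorem q_zero (hw : IsKahler w) (hL : IsHLB L) (hp : SemiPos L) (hg : IsSecL L g)
    (h0 : ∀ e x, At e x → DDL L w g e (e x) = 0) {e : Chart n Z} {x : Z} (hx : At e x) :
    hpL L w (QL L w g) g e (e x) = 0 := by
  have h1 : ipL L w (DDL L w g) (DDL L w g) = 0 := by
    rw [← ipL_zero_left (L := L) (w := w) (DDL L w g)]
    exact ipL_congr h0 fun _ _ _ => rfl
  have h2 := bkn hw hL hg
  rw [h1] at h2
  have h3 := congrArg Complex.re h2
  rw [Complex.zero_re, Complex.add_re] at h3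
  have h4 := re_gradb_nonneg hw hL g
  refine dens_eq_zero (dens_hpL hw hL (hg.q hw hL) hg)
    (fun e x hx => Qk_nonneg (hL.lat e x hx) (kat w hw hx) (hp e x hx) _) ?_ hx
  show (ipL L w (QL L w g) g).re ≤ 0
  linarith

/-- Leibniz rule for `D' + δ` -/
theorem DDL_smul {χ : Z → ℂ} (hχ : SmC (n := n) χ) (hg : IsSecL L g) {e : Chart n Z} {x : Z}
    (hx : At e x) : DDL L w (fun e z => χ (e.symm z) • g e z) e (e x) =
      χ x • DDL L w g e (e x) + (∑ l, dz l (fun y => χ (e.symm y)) (e x) • (eps l *ᵥ g e (e x)) -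
        ∑ b, dzb b (fun y => χ (e.symm y)) (e x) • (epd b (w e) (e x) *ᵥ g e (e x))) := by
  have h1 : ContDiffAt ℝ 1 (fun y => χ (e.symm y)) (e x) :=
    (hχ e x hx).of_le (by exact_mod_cast le_top)
  show Dp _ _ _ + De _ _ _ = _
  rw [Dp_smul h1 (sec_VC1 hg hx), De_smul h1 (sec_VC1 hg hx), hx.left_inv, DDL, smul_add]
  abel

end glob

end Vale.Agent.P299.IX.G
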