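import Vale.Agent.P299.H954.IX.Loc

/-!
# Local calculus for `(*,0)`-forms with values in a Hermitian line bundle

The line bundle is given near a point of a chart by a weight `H > 0` and the connection functions
`θ l = ∂_l log H`.  No condition on the curvature.
-/

open scoped Manifold ContDiff ComplexOrder Topology Matrix
open Vale.Agent.P272.K Vale.Agent.P272.K.C2 Vale.Agent.P299.H954

set_option linter.unusedSectionVars false

noncomputable section

namespace Vale.Agent.P299.IX.G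

variable {n : ℕ}

/-- a weight and its connection functions near a point -/
structure LAt (H : Cm n → ℂ) (θ : Fin n → Cm n → ℂ) (z : Cm n) : Prop where
  smooth : ∀ᶠ y in 𝓝 z, ContDiffAt ℝ ∞ H y
  pos : ∀ᶠ y in 𝓝 z, 0 < H y
  conn : ∀ᶠ y in 𝓝 z, ∀ l, dz l H y = θ l y * H y

/-- `D'` -/
def Dp (θ : Fin n → Cm n → ℂ) (a : Cm n → FI n → ℂ) (z : Cm n) : FI n → ℂ :=
  ∑ l, eps l *ᵥ (DV l a z + θ l z • a z)

/-- weight times volume density -/
def rho (H : Cm n → ℂ) (w : Cm n → Matrix (Fin n) (Fin n) ℂ) (z : Cm n) : ℂ := H z * (w z).det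

/-- Hermitian product times volume density -/
def hp (H : Cm n → ℂ) (w : Cm n → Matrix (Fin n) (Fin n) ℂ) (z : Cm n) (u v : FI n → ℂ) : ℂ :=
  rho H w z * pr (Ld w z *ᵥ u) v

/-- the zeroth order term `Σ (-∂̄_b θ_l) ε_b^† ε_l` -/
def Qk (θ : Fin n → Cm n → ℂ) (w : Cm n → Matrix (Fin n) (Fin n) ℂ) (z : Cm n)
    (u : FI n → ℂ) : FI n → ℂ :=
  ∑ l, ∑ b, (-(dzb b (θ l) z)) • (epd b w z *ᵥ (eps l *ᵥ u))

variable {w : Cm n → Matrix (Fin n) (Fin n) ℂ} {H : Cm n → ℂ} {θ : Fin n → Cm n → ℂ}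
  {z : Cm n} {l : Fin n}

theorem LAt.eventually (h : LAt H θ z) : ∀ᶠ y in 𝓝 z, LAt H θ y := by
  filter_upwards [h.smooth.eventually_nhds, h.pos.eventually_nhds, h.conn.eventually_nhds]
    with y h1 h2 h3 using ⟨h1, h2, h3⟩

theorem LAt.sm (h : LAt H θ z) : ContDiffAt ℝ ∞ H z := h.smooth.self_of_nhds

theorem LAt.posz (h : LAt H θ z) : 0 < H z := h.pos.self_of_nhds

theorem LAt.ne (h : LAt H θ z) : H z ≠ 0 := h.posz.ne'

theorem LAt.dH (h : LAt H θ z) (l : Fin n) : dz l H z = θ l z * H z := h.conn.self_of_nhds l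

theorem LAt.eqTheta (h : LAt H θ z) (l : Fin n) :
    θ l =ᶠ[𝓝 z] fun y => dz l H y * (H y)⁻¹ := by
  filter_upwards [h.eventually] with y hy
  rw [hy.dH, mul_assoc, mul_inv_cancel₀ hy.ne, mul_one]

theorem LAt.smTheta (h : LAt H θ z) (l : Fin n) : ContDiffAt ℝ ∞ (θ l) z := by
  have h1 : ContDiffAt ℝ ∞ (fun y => dz l H y * (H y)⁻¹) z :=
    (contDiffAt_dz l h.sm inf_add_one).mul (h.sm.inv h.ne)
  exact h1.congr_of_eventuallyEq (h.eqTheta l)

theorem LAt.symm (h : LAt H θ z) (l m : Fin n) : dz l (θ m) z = dz m (θ l) z := by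
  have hd : ∀ m, DifferentiableAt ℝ (θ m) z := fun m => (h.smTheta m).differentiableAt (by simp)
  have hH : DifferentiableAt ℝ H z := h.sm.differentiableAt (by simp)
  have e : ∀ l m, dz l (dz m H) z = dz l (θ m) z * H z + θ m z * (θ l z * H z) := by
    intro l m
    have e1 : dz m H =ᶠ[𝓝 z] fun y => θ m y * H y := by
      filter_upwards [h.conn] with y hy using hy m
    rw [C2.dz_congr l e1, dz_mul l (hd m) hH, h.dH]
  have e2 : dz l (dz m H) z = dz m (dz l H) z :=
    dz_dz_comm l m (h.sm.of_le (by norm_cast))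
  rw [e, e] at e2
  have e3 : dz l (θ m) z * H z = dz m (θ l) z * H z := by linear_combination e2
  exact mul_right_cancel₀ h.ne e3

theorem contDiffAt_rho (hH : LAt H θ z) (h : KAt w z) : ContDiffAt ℝ ∞ (rho H w) z :=
  hH.sm.mul h.sm.det

theorem dz_rho (hH : LAt H θ z) (h : KAt w z) :
    dz l (rho H w) z = (θ l z + tG l w z) * rho H w z := by
  have : rho H w = fun y => H y * (w y).det := rfl
  rw [this, dz_mul l (hH.sm.differentiableAt (by simp)) (h.sm.det.differentiableAt (by simp)),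
    hH.dH, dz_det' h]
  ring

/-- derivative of `hp` -/
theorem dz_hp (hH : LAt H θ z) (h : KAt w z) {a b : Cm n → FI n → ℂ} (ha : VC 1 a z)
    (hb : VC 1 b z) :
    dz l (fun y => hp H w y (a y) (b y)) z =
      (θ l z + tG l w z) * hp H w z (a z) (b z) - hp H w z (dlam (Gam l w z) *ᵥ a z) (b z)
        + hp H w z (DV l a z) (b z) + hp H w z (a z) (DVb l b z) := by
  have one := one_ne_zero_inf
  have hLd : C2.MC 1 (Ld w) z := (MC_Ld h).mono (by exact_mod_cast le_top)
  have h1 : VC 1 (fun y => Ld w y *ᵥ a y) z := VC.mulVec hLd ha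
  have h2 : ContDiffAt ℝ 1 (rho H w) z :=
    (contDiffAt_rho hH h).of_le (by exact_mod_cast le_top)
  simp only [hp]
  rw [dz_mul l (h2.differentiableAt one) ((contDiffAt_pr h1 hb).differentiableAt one),
    dz_rho hH h, dz_pr h1 hb, DV_mulVec hLd ha, DM_Ld h, pr_add_left, Matrix.neg_mulVec,
    pr_neg_left, ← Matrix.mulVec_mulVec]
  ring

theorem hp_add_left (u u' v : FI n → ℂ) : hp H w z (u + u') v = hp H w z u v + hp H w z u' v := by
  simp only [hp, Matrix.mulVec_add, pr_add_left, mul_add]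

theorem hp_add_right (u v v' : FI n → ℂ) : hp H w z u (v + v') = hp H w z u v + hp H w z u v' := by
  simp only [hp, pr_add_right, mul_add]

theorem hp_smul_left (c : ℂ) (u v : FI n → ℂ) : hp H w z (c • u) v = c * hp H w z u v := by
  simp only [hp, Matrix.mulVec_smul, pr_smul_left]; ring

theorem hp_smul_right (c : ℂ) (u v : FI n → ℂ) :
    hp H w z u (c • v) = (starRingEnd ℂ) c * hp H w z u v := by
  simp only [hp, pr_smul_right]; ring

theorem hp_neg_left (u v : FI n → ℂ) : hp H w z (-u) v = -hp H w z u v := by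
  simp only [hp, Matrix.mulVec_neg, pr_neg_left]; ring

theorem hp_neg_right (u v : FI n → ℂ) : hp H w z u (-v) = -hp H w z u v := by
  simp only [hp, pr_neg_right]; ring

theorem hp_sub_left (u u' v : FI n → ℂ) : hp H w z (u - u') v = hp H w z u v - hp H w z u' v := by
  rw [sub_eq_add_neg, hp_add_left, hp_neg_left, sub_eq_add_neg]

theorem hp_zero_left (v : FI n → ℂ) : hp H w z 0 v = 0 := by
  simp [hp, pr_zero_left]

theorem hp_zero_right (u : FI n → ℂ) : hp H w z u 0 = 0 := by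
  simp [hp, pr_zero_right]

theorem hp_sum_left {τ : Type*} (s : Finset τ) (F : τ → FI n → ℂ) (v : FI n → ℂ) :
    hp H w z (∑ i ∈ s, F i) v = ∑ i ∈ s, hp H w z (F i) v := by
  simp only [hp, Matrix.mulVec_sum, pr_sum_left, Finset.mul_sum]

theorem hp_sum_right {τ : Type*} (s : Finset τ) (F : τ → FI n → ℂ) (u : FI n → ℂ) :
    hp H w z u (∑ i ∈ s, F i) = ∑ i ∈ s, hp H w z u (F i) := by
  simp only [hp, pr_sum_right, Finset.mul_sum]

theorem hp_eps (h : KAt w z) (l : Fin n) (u v : FI n → ℂ) :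
    hp H w z (eps l *ᵥ u) v = hp H w z u (epd l w z *ᵥ v) := by
  simp only [hp, pr_Ld_eps h]

/-- **first divergence identity** -/
theorem div_one (hH : LAt H θ z) (h : KAt w z) {a b : Cm n → FI n → ℂ} (ha : VC 1 a z)
    (hb : VC 1 b z) :
    ∑ l, dz l (fun y => hp H w y (eps l *ᵥ a y) (b y)) z =
      hp H w z (Dp θ a z) (b z) - hp H w z (a z) (De w b z) := by
  have e1 : ∀ l, dz l (fun y => hp H w y (eps l *ᵥ a y) (b y)) z =
      (θ l z + tG l w z) * hp H w z (eps l *ᵥ a z) (b z)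
        - hp H w z (dlam (Gam l w z) *ᵥ (eps l *ᵥ a z)) (b z)
        + hp H w z (eps l *ᵥ DV l a z) (b z) + hp H w z (a z) (epd l w z *ᵥ DVb l b z) := by
    intro l
    rw [dz_hp hH h (VC_constMul (eps l) ha) hb, DV_constMul (eps l) ha, hp_eps h l (a z)]
    simp only [hp_eps h]
  simp only [e1, Finset.sum_add_distrib, Finset.sum_sub_distrib]
  have e2 : ∑ l, hp H w z (dlam (Gam l w z) *ᵥ (eps l *ᵥ a z)) (b z) =
      ∑ l, tG l w z * hp H w z (eps l *ᵥ a z) (b z) := by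
    rw [← hp_sum_left, sum_trace_eps' h, hp_sum_left]
    simp only [hp_smul_left]
  have e3 : hp H w z (Dp θ a z) (b z) = ∑ l, hp H w z (eps l *ᵥ DV l a z) (b z) +
      ∑ l, θ l z * hp H w z (eps l *ᵥ a z) (b z) := by
    simp only [Dp, hp_sum_left, Matrix.mulVec_add, Matrix.mulVec_smul, hp_add_left, hp_smul_left,
      Finset.sum_add_distrib]
  have e4 : hp H w z (a z) (De w b z) = -∑ l, hp H w z (a z) (epd l w z *ᵥ DVb l b z) := by
    simp only [De, hp_neg_right, hp_sum_right]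
  rw [e2, e3, e4]
  have e5 : ∑ l, (θ l z + tG l w z) * hp H w z (eps l *ᵥ a z) (b z) =
      ∑ l, θ l z * hp H w z (eps l *ᵥ a z) (b z) +
        ∑ l, tG l w z * hp H w z (eps l *ᵥ a z) (b z) := by
    rw [← Finset.sum_add_distrib]
    exact Finset.sum_congr rfl fun l _ => by ring
  rw [e5]
  ring

theorem VC_Dp {a : Cm n → FI n → ℂ} (hH : LAt H θ z) {q : ℕ} (ha : VC (q + 1) a z) :
    VC q (Dp θ a) z := by
  refine VC.sum _ fun l _ => VC_constMul _ ((ha.DV le_rfl).add (VC.smul ?_ ?_))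
  · exact (hH.smTheta l).of_le (by exact_mod_cast le_top)
  · exact ha.mono (by exact_mod_cast le_self_add)

/-- **the Laplacian** `D'δ + δD'` -/
theorem lap_eq (hH : LAt H θ z) (h : KAt w z) {a : Cm n → FI n → ℂ} (ha : VC 2 a z) :
    Dp θ (De w a) z + De w (Dp θ a) z =
      Qk θ w z (a z) + ∑ l, dlam (Gam l w z) *ᵥ upb l w a z
        - ∑ l, ∑ b, (w z)⁻¹ b l • DV l (DVb b a) z - ∑ l, θ l z • upb l w a z := by
  have ha1 : VC 1 a z := ha.mono (by norm_num)
  have hDVb : ∀ b, VC 1 (DVb b a) z := fun b => ha.DVb (by norm_num)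
  have hDV : ∀ b, VC 1 (DV b a) z := fun b => ha.DV (by norm_num)
  have hepd : ∀ b, C2.MC 1 (epd b w) z := fun b => (MC_epd h b).mono (by exact_mod_cast le_top)
  have htG : ∀ l, ContDiffAt ℝ 1 (θ l) z := fun l =>
    (hH.smTheta l).of_le (by exact_mod_cast le_top)
  -- `∂_l δ a`
  have e1 : ∀ l, DV l (De w a) z =
      -∑ b, (DM l (epd b w) z *ᵥ DVb b a z + epd b w z *ᵥ DV l (DVb b a) z) := by
    intro l
    have : De w a = fun y => -∑ b, epd b w y *ᵥ DVb b a y := rfl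
    rw [this, DV_neg (a := fun y => ∑ b, epd b w y *ᵥ DVb b a y),
      DV_sum _ fun b _ => VC.mulVec (hepd b) (hDVb b)]
    congr 1
    exact Finset.sum_congr rfl fun b _ => DV_mulVec (hepd b) (hDVb b)
  -- `∂̄_b D' a`
  have e2 : ∀ b, DVb b (Dp θ a) z = ∑ l, eps l *ᵥ (DV l (DVb b a) z +
      ((dzb b (θ l) z) • a z + (θ l z) • DVb b a z)) := by
    intro b
    have : Dp θ a = fun y => ∑ l, eps l *ᵥ (DV l a y + θ l y • a y) := rfl
    rw [this, DVb_sum _ fun l _ => VC_constMul _ ((hDV l).add (VC.smul (htG l) ha1))]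
    refine Finset.sum_congr rfl fun l _ => ?_
    rw [DVb_constMul _ ((hDV l).add (VC.smul (htG l) ha1)), DVb_add (hDV l) (VC.smul (htG l) ha1),
      DVb_smul (htG l) ha1, DV_DVb_comm ha]
  have e3 : Dp θ (De w a) z = -∑ l, ∑ b, (eps l *ᵥ (DM l (epd b w) z *ᵥ DVb b a z) +
      (eps l *ᵥ (epd b w z *ᵥ DV l (DVb b a) z) +
        (θ l z) • (eps l *ᵥ (epd b w z *ᵥ DVb b a z)))) := by
    rw [Dp, ← Finset.sum_neg_distrib]
    refine Finset.sum_congr rfl fun l _ => ?_
    rw [e1, De, ← Finset.sum_neg_distrib, ← Finset.sum_neg_distrib, ← Finset.sum_neg_distrib,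
      Finset.smul_sum, ← Finset.sum_add_distrib, Matrix.mulVec_sum]
    refine Finset.sum_congr rfl fun b _ => ?_
    simp only [smul_neg, Matrix.mulVec_add, Matrix.mulVec_neg, Matrix.mulVec_smul, neg_add]
    abel
  have e4 : De w (Dp θ a) z = -∑ l, ∑ b, (epd b w z *ᵥ (eps l *ᵥ DV l (DVb b a) z) +
      ((dzb b (θ l) z) • (epd b w z *ᵥ (eps l *ᵥ a z)) +
        (θ l z) • (epd b w z *ᵥ (eps l *ᵥ DVb b a z)))) := by
    rw [De, Finset.sum_comm]
    congr 1
    refine Finset.sum_congr rfl fun b _ => ?_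
    rw [e2, Matrix.mulVec_sum]
    refine Finset.sum_congr rfl fun l _ => ?_
    simp only [Matrix.mulVec_add, Matrix.mulVec_smul]
  have e5 : ∀ l b (u : FI n → ℂ), eps l *ᵥ (epd b w z *ᵥ u) + epd b w z *ᵥ (eps l *ᵥ u) =
      (w z)⁻¹ b l • u := by
    intro l b u
    rw [Matrix.mulVec_mulVec, Matrix.mulVec_mulVec, ← Matrix.add_mulVec, car_epd,
      Matrix.smul_mulVec, Matrix.one_mulVec]
  have e6 : ∑ l, ∑ b, eps l *ᵥ (DM l (epd b w) z *ᵥ DVb b a z) =
      -∑ l, dlam (Gam l w z) *ᵥ upb l w a z := by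
    rw [Finset.sum_comm]
    have : ∀ b, ∑ l, eps l *ᵥ (DM l (epd b w) z *ᵥ DVb b a z) =
        -∑ a', (w z)⁻¹ b a' • (dlam (Gam a' w z) *ᵥ DVb b a z) := by
      intro b
      have h1 := congrArg (· *ᵥ DVb b a z) (sum_eps_DM_epd h b)
      simp only [Matrix.sum_mulVec, Matrix.smul_mulVec, Matrix.neg_mulVec,
        ← Matrix.mulVec_mulVec] at h1
      exact h1
    simp only [this, Finset.sum_neg_distrib]
    rw [Finset.sum_comm]
    congr 1
    refine Finset.sum_congr rfl fun l _ => ?_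
    rw [upb, Matrix.mulVec_sum]
    exact Finset.sum_congr rfl fun b _ => by rw [Matrix.mulVec_smul]
  have e7 : ∑ l, (θ l z) • upb l w a z =
      ∑ l, ∑ b, (θ l z) • ((w z)⁻¹ b l • DVb b a z) := by
    refine Finset.sum_congr rfl fun l _ => ?_
    rw [upb, Finset.smul_sum]
  rw [e3, e4, e7, Qk, ← neg_eq_iff_eq_neg.2 e6]
  simp only [← Finset.sum_neg_distrib, ← Finset.sum_add_distrib, ← Finset.sum_sub_distrib]
  refine Finset.sum_congr rfl fun l _ => Finset.sum_congr rfl fun b _ => ?_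
  rw [← e5 l b (DV l (DVb b a) z), ← e5 l b (DVb b a z)]
  simp only [smul_add, neg_smul, neg_add]
  abel

/-- **second divergence identity** (BKN) -/
theorem div_two (hH : LAt H θ z) (h : KAt w z) {a c : Cm n → FI n → ℂ} (ha : VC 2 a z)
    (hc : VC 1 c z) :
    ∑ l, dz l (fun y => hp H w y (upb l w a y) (c y)) z =
      -hp H w z (Dp θ (De w a) z + De w (Dp θ a) z) (c z) + hp H w z (Qk θ w z (a z)) (c z)
        + ∑ l, ∑ b, (w z)⁻¹ b l * hp H w z (DVb b a z) (DVb l c z) := by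
  have hDVb : ∀ b, VC 1 (DVb b a) z := fun b => ha.DVb (by norm_num)
  have hinv : ∀ b l, ContDiffAt ℝ 1 (fun y => (w y)⁻¹ b l) z := fun b l =>
    (h.inv b l).of_le (by exact_mod_cast le_top)
  have hup : ∀ l, VC 1 (upb l w a) z := fun l => by
    have := VC_upb (l := l) (q := 1) h (a := a) (by exact_mod_cast ha)
    exact_mod_cast this
  have e1 : ∀ l, DV l (upb l w a) z =
      ∑ b, ((-((w z)⁻¹ * Gam l w z) b l) • DVb b a z + (w z)⁻¹ b l • DV l (DVb b a) z) := by
    intro l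
    have : upb l w a = fun y => ∑ b, (w y)⁻¹ b l • DVb b a y := rfl
    rw [this, DV_sum _ fun b _ => VC.smul (hinv b l) (hDVb b)]
    refine Finset.sum_congr rfl fun b _ => ?_
    rw [DV_smul (hinv b l) (hDVb b), dz_inv h]
  have e2 : ∑ l, ∑ b, (((w z)⁻¹ * Gam l w z) b l) • DVb b a z = ∑ l, tG l w z • upb l w a z := by
    have h1 : ∀ b, ∑ l, ((w z)⁻¹ * Gam l w z) b l = ∑ l, (w z)⁻¹ b l * tG l w z := by
      intro b
      simp only [Matrix.mul_apply]
      rw [Finset.sum_comm]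
      refine Finset.sum_congr rfl fun c _ => ?_
      rw [← Finset.mul_sum, tG, Matrix.trace]
      congr 1
      exact Finset.sum_congr rfl fun l _ => Gam_symm h l c l
    rw [Finset.sum_comm]
    have h2 : ∀ b, ∑ l, (((w z)⁻¹ * Gam l w z) b l) • DVb b a z =
        ∑ l, tG l w z • ((w z)⁻¹ b l • DVb b a z) := by
      intro b
      rw [← Finset.sum_smul, h1, Finset.sum_smul]
      refine Finset.sum_congr rfl fun l _ => ?_
      rw [smul_smul, mul_comm]
    simp only [h2]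
    rw [Finset.sum_comm]
    refine Finset.sum_congr rfl fun l _ => ?_
    rw [upb, Finset.smul_sum]
  have e3 : ∑ l, hp H w z (upb l w a z) (DVb l c z) =
      ∑ l, ∑ b, (w z)⁻¹ b l * hp H w z (DVb b a z) (DVb l c z) := by
    refine Finset.sum_congr rfl fun l _ => ?_
    rw [upb, hp_sum_left]
    exact Finset.sum_congr rfl fun b _ => hp_smul_left _ _ _
  have e4 : ∑ l, dz l (fun y => hp H w y (upb l w a y) (c y)) z =
      ∑ l, ((θ l z + tG l w z) * hp H w z (upb l w a z) (c z)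
        - hp H w z (dlam (Gam l w z) *ᵥ upb l w a z) (c z)
        + hp H w z (DV l (upb l w a) z) (c z)) +
      ∑ l, ∑ b, (w z)⁻¹ b l * hp H w z (DVb b a z) (DVb l c z) := by
    rw [← e3, ← Finset.sum_add_distrib]
    exact Finset.sum_congr rfl fun l _ => dz_hp hH h (hup l) hc
  rw [e4]
  congr 1
  have e5 : ∑ l, ((θ l z + tG l w z) * hp H w z (upb l w a z) (c z)
        - hp H w z (dlam (Gam l w z) *ᵥ upb l w a z) (c z)
        + hp H w z (DV l (upb l w a) z) (c z)) =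
      hp H w z (∑ l, (θ l z + tG l w z) • upb l w a z -
        ∑ l, dlam (Gam l w z) *ᵥ upb l w a z + ∑ l, DV l (upb l w a) z) (c z) := by
    rw [hp_add_left, hp_sub_left, hp_sum_left, hp_sum_left, hp_sum_left]
    simp only [hp_smul_left, Finset.sum_add_distrib, Finset.sum_sub_distrib]
  rw [e5, ← hp_neg_left, ← hp_add_left, lap_eq hH h ha]
  congr 1
  simp only [e1, Finset.sum_add_distrib, neg_smul, Finset.sum_neg_distrib, e2, add_smul]
  abel

/-- `D'² = 0` -/
theorem Dp_Dp (hH : LAt H θ z) {a : Cm n → FI n → ℂ} (ha : VC 2 a z) :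
    Dp θ (Dp θ a) z = 0 := by
  have ha1 : VC 1 a z := ha.mono (by norm_num)
  have hDV : ∀ b, VC 1 (DV b a) z := fun b => ha.DV (by norm_num)
  have htG : ∀ l, ContDiffAt ℝ 1 (θ l) z := fun l =>
    (hH.smTheta l).of_le (by exact_mod_cast le_top)
  have e2 : ∀ b, DV b (Dp θ a) z = ∑ l, eps l *ᵥ (DV b (DV l a) z +
      ((dz b (θ l) z) • a z + (θ l z) • DV b a z)) := by
    intro b
    have : Dp θ a = fun y => ∑ l, eps l *ᵥ (DV l a y + θ l y • a y) := rfl
    rw [this, DV_sum _ fun l _ => VC_constMul _ ((hDV l).add (VC.smul (htG l) ha1))]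
    refine Finset.sum_congr rfl fun l _ => ?_
    rw [DV_constMul _ ((hDV l).add (VC.smul (htG l) ha1)), DV_add (hDV l) (VC.smul (htG l) ha1),
      DV_smul (htG l) ha1]
  have e3 : Dp θ (Dp θ a) z = ∑ b, ∑ l, eps b *ᵥ (eps l *ᵥ (DV b (DV l a) z +
      ((dz b (θ l) z) • a z + (θ l z) • DV b a z) +
      (θ b z) • (DV l a z + (θ l z) • a z))) := by
    have : Dp θ (Dp θ a) z = ∑ b, eps b *ᵥ (DV b (Dp θ a) z +
      (θ b z) • Dp θ a z) := rfl
    rw [this]
    refine Finset.sum_congr rfl fun b _ => ?_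
    rw [e2, Dp, Finset.smul_sum, ← Finset.sum_add_distrib, Matrix.mulVec_sum]
    refine Finset.sum_congr rfl fun l _ => ?_
    rw [← Matrix.mulVec_smul, ← Matrix.mulVec_add]
  rw [e3]
  refine sum_eps_symm' fun b l => ?_
  have h1 : DV b (DV l a) z = DV l (DV b a) z := by
    ext i; exact dz_dz_comm b l (ha i)
  rw [h1, hH.symm b l]
  simp only [smul_add, smul_smul]
  rw [mul_comm (θ b z) (θ l z)]
  abel

end Vale.Agent.P299.IX.G
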