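import Vale.Agent.P299.H954.IX.G.Cov
import Vale.Agent.P299.H954.IX.Defs

/-!
# Sections of `Λ^{*,0} ⊗ L` for a Hermitian line bundle `L`: covariance on the manifold
-/

open scoped Manifold ContDiff ComplexOrder Topology Matrix
open Vale.Agent.P272.K Vale.Agent.P272.K.C2 Vale.Agent.P299.H954

set_option linter.unusedSectionVars false

noncomputable section

namespace Vale.Agent.P299.IX.G

/-- a Hermitian line bundle: cocycle `c`, weights `H`, connection functions `θ l = ∂_l log H` -/
structure HLB (n : ℕ) (Z : Type*) [TopologicalSpace Z] where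
  c : Chart n Z → Chart n Z → Z → ℂ
  H : Chart n Z → Cm n → ℂ
  θ : Chart n Z → Fin n → Cm n → ℂ

variable {n : ℕ} {Z : Type*} [TopologicalSpace Z]

/-- `D'` -/
def DpL (L : HLB n Z) (g : Frm n Z) : Frm n Z := fun e => Dp (L.θ e) (g e)

/-- `D' + δ` -/
def DDL (L : HLB n Z) (w : D.FormM n Z) (g : Frm n Z) : Frm n Z := fun e z =>
  Dp (L.θ e) (g e) z + De (w e) (g e) z

/-- the curvature term -/
def QL (L : HLB n Z) (w : D.FormM n Z) (g : Frm n Z) : Frm n Z := fun e z =>
  Qk (L.θ e) (w e) z (g e z)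

/-- the Hermitian product of two sections times the volume density, in the charts -/
def hpL (L : HLB n Z) (w : D.FormM n Z) (g h : Frm n Z) (e : Chart n Z) (z : Cm n) : ℂ :=
  hp (L.H e) (w e) z (g e z) (h e z)

/-- the gradient density -/
def gradbL (L : HLB n Z) (w : D.FormM n Z) (g h : Frm n Z) (e : Chart n Z) (z : Cm n) : ℂ :=
  gradb (L.H e) (w e) (g e) (h e) z

variable [ChartedSpace (Cm n) Z]

structure IsHLB (L : HLB n Z) : Prop where
  lat : ∀ e x, At e x → LAt (L.H e) (L.θ e) (e x)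
  an : ∀ e e' x, At e x → At e' x → ContDiffAt ℂ ω (fun z => L.c e e' (e.symm z)) (e x)
  ne : ∀ e e' x, At e x → At e' x → L.c e e' x ≠ 0
  norm : ∀ e e' x, At e x → At e' x →
    L.H e (e x) = ((‖L.c e e' x‖ ^ 2 : ℝ) : ℂ) * L.H e' (e' x)

/-- `g` is a smooth section of `Λ^{*,0} ⊗ L` -/
structure IsSecL (L : HLB n Z) (g : Frm n Z) : Prop where
  smooth : ∀ e x, At e x → VC ∞ (g e) (e x)
  change : ∀ e e' x, At e x → At e' x →
    L.c e e' x • g e (e x) = lam (jacM e e' x)ᵀ *ᵥ g e' (e' x)

theorem kat (w : D.FormM n Z) (hw : IsKahler w) {e : Chart n Z} {x : Z} (hx : At e x) :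
    KAt (w e) (e x) where
  smooth := by
    filter_upwards [eventually_at hx] with z hz
    intro i j
    have := hw.smooth e _ hz.1 i j
    rwa [hz.2] at this
  pos := IsHermitian.ev_posDef hw.toIsHermitian hx
  closed := IsKahler.ev_closed hw hx

variable {L : HLB n Z} {w : D.FormM n Z} {g h : Frm n Z} {e e' : Chart n Z} {x : Z}

theorem IsSecL.add (hg : IsSecL L g) (hh : IsSecL L h) : IsSecL L (fun e z => g e z + h e z) where
  smooth e x hx := (hg.smooth e x hx).add (hh.smooth e x hx)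
  change e e' x hx hx' := by
    rw [smul_add, hg.change e e' x hx hx', hh.change e e' x hx hx', Matrix.mulVec_add]

theorem IsSecL.neg (hg : IsSecL L g) : IsSecL L (fun e z => -g e z) where
  smooth e x hx := (hg.smooth e x hx).neg
  change e e' x hx hx' := by
    rw [smul_neg, hg.change e e' x hx hx', Matrix.mulVec_neg]

theorem IsSecL.zero : IsSecL L (fun _ _ => 0) where
  smooth e x hx i := contDiffAt_const
  change e e' x hx hx' := by simp

theorem IsSecL.const_smul (a : ℂ) (hg : IsSecL L g) : IsSecL L (fun e z => a • g e z) where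
  smooth e x hx := VC.smul contDiffAt_const (hg.smooth e x hx)
  change e e' x hx hx' := by
    rw [smul_comm, hg.change e e' x hx hx', Matrix.mulVec_smul]

theorem IsSecL.sum {ι : Type*} (s : Finset ι) {G : ι → Frm n Z} (hG : ∀ i ∈ s, IsSecL L (G i)) :
    IsSecL L (fun e z => ∑ i ∈ s, G i e z) where
  smooth e x hx := VC.sum s fun i hi => (hG i hi).smooth e x hx
  change e e' x hx hx' := by
    rw [Finset.smul_sum, Matrix.mulVec_sum]
    exact Finset.sum_congr rfl fun i hi => (hG i hi).change e e' x hx hx'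

/-- smooth complex valued functions -/
def SmC (χ : Z → ℂ) : Prop :=
  ∀ (e : Chart n Z) (x : Z), At e x → ContDiffAt ℝ ∞ (fun z => χ (e.symm z)) (e x)

theorem SmoothFn.smC {u : Z → ℝ} (hu : SmoothFn (n := n) u) : SmC (n := n) fun x => (u x : ℂ) :=
  fun e x hx => contDiffAt_ofReal (hu e x hx)

theorem IsSecL.smul {χ : Z → ℂ} (hχ : SmC (n := n) χ) (hg : IsSecL L g) :
    IsSecL L (fun e z => χ (e.symm z) • g e z) where
  smooth e x hx := VC.smul (hχ e x hx) (hg.smooth e x hx)
  change e e' x hx hx' := by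
    rw [hx.left_inv, hx'.left_inv, smul_comm, hg.change e e' x hx hx', Matrix.mulVec_smul]

section manifold

variable [IsManifold 𝓘(ℂ, Cm n) ω Z]

theorem chg (hw : IsKahler w) (hx : At e x) (hx' : At e' x) :
    ∀ᶠ y in 𝓝 (e x), Chg (fun z => e' (e.symm z)) (w e) (w e') y := by
  filter_upwards [hx.nhds_at hx'] with y hy
  obtain ⟨hyt, h1, h2⟩ := hy
  have hey : e (e.symm y) = y := e.right_inv hyt
  refine ⟨?_, ?_, ?_, ?_, ?_⟩
  · have := transition h1 h2
    rwa [hey] at this
  · have := kat w hw h1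
    rwa [hey] at this
  · exact kat w hw h2
  · have := jacM_isUnit h1 h2
    rwa [jacM_eq, hey] at this
  · have := hw.change e e' _ h1 h2
    rwa [jacM_eq, hey] at this

theorem chgL (hL : IsHLB L) (hx : At e x) (hx' : At e' x) :
    ∀ᶠ y in 𝓝 (e x), ChgL (fun z => e' (e.symm z)) (fun z => L.c e e' (e.symm z))
      (L.H e) (L.H e') (L.θ e) (L.θ e') y := by
  filter_upwards [(hx.nhds_at hx').eventually_nhds] with y hy
  obtain ⟨hyt, h1, h2⟩ := hy.self_of_nhds
  have hey : e (e.symm y) = y := e.right_inv hyt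
  refine ⟨?_, ?_, ?_, ?_, ?_⟩
  · have := hL.lat e _ h1
    rwa [hey] at this
  · exact hL.lat e' _ h2
  · have := hL.an e e' _ h1 h2
    rwa [hey] at this
  · exact hL.ne e e' _ h1 h2
  · filter_upwards [hy] with y' hy'
    have := hL.norm e e' _ hy'.2.1 hy'.2.2
    rwa [e.right_inv hy'.1] at this

theorem chgV (hg : IsSecL L g) (hx : At e x) (hx' : At e' x) :
    ∀ᶠ y in 𝓝 (e x), ChgV (fun z => e' (e.symm z)) (fun z => L.c e e' (e.symm z))
      (g e) (g e') y := by
  filter_upwards [(hx.nhds_at hx').eventually_nhds] with y hy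
  obtain ⟨hyt, h1, h2⟩ := hy.self_of_nhds
  have hey : e (e.symm y) = y := e.right_inv hyt
  refine ⟨?_, ?_, ?_⟩
  · have := hg.smooth e _ h1
    rw [hey] at this
    exact this.mono (by exact_mod_cast le_top)
  · exact (hg.smooth e' _ h2).mono (by exact_mod_cast le_top)
  · filter_upwards [hy] with y' hy'
    have := hg.change e e' _ hy'.2.1 hy'.2.2
    rwa [jacM_eq, e.right_inv hy'.1] at this

theorem chart_symm_eq (hx : At e x) : e.symm (e x) = x := hx.left_inv

/-- `D'` of a section -/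
theorem IsSecL.dp (hw : IsKahler w) (hL : IsHLB L) (hg : IsSecL L g) : IsSecL L (DpL L g) where
  smooth e x hx := by
    show VC ∞ (fun y => ∑ l, eps l *ᵥ (DV l (g e) y + L.θ e l y • g e y)) (e x)
    exact VC.sum _ fun l _ => VC_constMul _ (((hg.smooth e x hx).DV inf_add_one).add
      (VC.smul ((hL.lat e x hx).smTheta l) (hg.smooth e x hx)))
  change e e' x hx hx' := by
    have := Dp_change (chg hw hx hx').self_of_nhds (chgL hL hx hx').self_of_nhds
      (chgV hg hx hx').self_of_nhds
    simp only [hx.left_inv] at this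
    rw [jacM_eq]
    exact this

theorem IsSecL.de (hw : IsKahler w) (hL : IsHLB L) (hg : IsSecL L g) : IsSecL L (DeX w g) where
  smooth e x hx :=
    (VC.sum _ fun b _ => VC.mulVec (MC_epd (kat w hw hx) b)
      ((hg.smooth e x hx).DVb inf_add_one)).neg
  change e e' x hx hx' := by
    have := De_change (chg hw hx hx').self_of_nhds (hL.an e e' x hx hx')
      (chgV hg hx hx').self_of_nhds
    simp only [hx.left_inv] at this
    rw [jacM_eq]
    exact this

theorem IsSecL.dd (hw : IsKahler w) (hL : IsHLB L) (hg : IsSecL L g) : IsSecL L (DDL L w g) :=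
  (hg.dp hw hL).add (hg.de hw hL)

theorem IsSecL.q (hw : IsKahler w) (hL : IsHLB L) (hg : IsSecL L g) : IsSecL L (QL L w g) where
  smooth e x hx := by
    show VC ∞ (fun y => ∑ l, ∑ b, (-(dzb b (L.θ e l) y)) •
      (epd b (w e) y *ᵥ (eps l *ᵥ g e y))) (e x)
    refine VC.sum _ fun l _ => VC.sum _ fun b _ => VC.smul ?_
      (VC.mulVec (MC_epd (kat w hw hx) b) (VC_constMul _ (hg.smooth e x hx)))
    exact (contDiffAt_dzb b ((hL.lat e x hx).smTheta l) inf_add_one).neg
  change e e' x hx hx' := by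
    have h1 := (chgV hg hx hx').self_of_nhds.chz
    have := Qk_change (chg hw hx hx') (chgL hL hx hx') h1
    simp only [hx.left_inv] at this
    rw [jacM_eq]
    exact this

theorem hpL_change (hw : IsKahler w) (hL : IsHLB L) (hg : IsSecL L g) (hh : IsSecL L h)
    (hx : At e x) (hx' : At e' x) :
    hpL L w g h e (e x) = hpL L w g h e' (e' x) * ((‖(jacM e e' x).det‖ ^ 2 : ℝ) : ℂ) :=
  hp_change (jacM_isUnit hx hx') (hw.change e e' x hx hx') (hL.norm e e' x hx hx')
    (hg.change e e' x hx hx') (hh.change e e' x hx hx')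

theorem hpL_smooth (hw : IsKahler w) (hL : IsHLB L) (hg : IsSecL L g) (hh : IsSecL L h)
    (hx : At e x) : ContDiffAt ℝ ∞ (hpL L w g h e) (e x) :=
  (contDiffAt_rho (hL.lat e x hx) (kat w hw hx)).mul
    (contDiffAt_pr (VC.mulVec (MC_Ld (kat w hw hx)) (hg.smooth e x hx)) (hh.smooth e x hx))

theorem gradbL_change (hw : IsKahler w) (hL : IsHLB L) (hg : IsSecL L g) (hh : IsSecL L h)
    (hx : At e x) (hx' : At e' x) :
    gradbL L w g h e (e x) = gradbL L w g h e' (e' x) *
      ((‖(jacM e e' x).det‖ ^ 2 : ℝ) : ℂ) := by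
  have h1 := (chgL hL hx hx').self_of_nhds
  have := gradb_change (chg hw hx hx').self_of_nhds h1.an h1.norm.self_of_nhds
    (chgV hg hx hx').self_of_nhds (chgV hh hx hx').self_of_nhds
  simp only [hx.left_inv] at this
  rw [jacM_eq]
  exact this

theorem gradbL_smooth (hw : IsKahler w) (hL : IsHLB L) (hg : IsSecL L g) (hh : IsSecL L h)
    (hx : At e x) : ContDiffAt ℝ ∞ (gradbL L w g h e) (e x) := by
  show ContDiffAt ℝ ∞ (fun z => ∑ l, ∑ b, (w e z)⁻¹ b l * (rho (L.H e) (w e) z *
    pr (Ld (w e) z *ᵥ DVb b (g e) z) (DVb l (h e) z))) (e x)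
  refine ContDiffAt.sum fun l _ => ContDiffAt.sum fun b _ => ?_
  refine ((kat w hw hx).inv b l).mul ?_
  exact (contDiffAt_rho (hL.lat e x hx) (kat w hw hx)).mul
    (contDiffAt_pr (VC.mulVec (MC_Ld (kat w hw hx)) ((hg.smooth e x hx).DVb inf_add_one))
      ((hh.smooth e x hx).DVb inf_add_one))

end manifold

end Vale.Agent.P299.IX.G
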